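import Mathlib.Analysis.InnerProductSpace.Adjoint
import Mathlib.Analysis.InnerProductSpace.l2Space
import Mathlib.Combinatorics.SimpleGraph.Maps
import Mathlib.GroupTheory.Coprod.Basic
import Mathlib.GroupTheory.PresentedGroup
import Mathlib.GroupTheory.QuotientGroup.Defs
import Mathlib.GroupTheory.SemidirectProduct

/-!
Definitions used in the statement of `P086.GraphProducts`: the group von Neumann algebra, graph
products of groups, right-angled Artin groups and amalgamated free products.
-/

namespace Vale.Agent.P086.H837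

open Monoid

/-! ### The group von Neumann algebra

The Hilbert space `ℓ²(G)` is any complex Hilbert space `E` with an orthonormal basis `e` indexed by
`G` (`e g = δ_g`). -/

/-- The commutant `S' = {x : x y = y x for all y ∈ S}` of a set of bounded operators. -/
def commutant {E : Type} [NormedAddCommGroup E] [NormedSpace ℂ E] (S : Set (E →L[ℂ] E)) :
    Set (E →L[ℂ] E) := {x | ∀ y ∈ S, x * y = y * x}

/-- The set of all left translation operators `λ(g)`, `g ∈ G`: `λ(g) δ_h = δ_{gh}`. -/
def leftRegular {G : Type} [Group G] {E : Type} [NormedAddCommGroup E] [InnerProductSpace ℂ E]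
    (e : HilbertBasis G ℂ E) : Set (E →L[ℂ] E) := {x | ∃ g : G, ∀ h : G, x (e h) = e (g * h)}

/-- The group von Neumann algebra `L(G) = λ(G)''`. -/
def groupVN {G : Type} [Group G] {E : Type} [NormedAddCommGroup E] [InnerProductSpace ℂ E]
    (e : HilbertBasis G ℂ E) : Set (E →L[ℂ] E) := commutant (commutant (leftRegular e))

/-- `θ` restricts to a `*`-isomorphism of the algebra of operators `M` onto the algebra of
operators `N`. -/
structure IsStarIso {E F : Type} [NormedAddCommGroup E] [InnerProductSpace ℂ E] [CompleteSpace E]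
    [NormedAddCommGroup F] [InnerProductSpace ℂ F] [CompleteSpace F]
    (θ : (E →L[ℂ] E) → (F →L[ℂ] F)) (M : Set (E →L[ℂ] E)) (N : Set (F →L[ℂ] F)) : Prop where
  bij : Set.BijOn θ M N
  add : ∀ x ∈ M, ∀ y ∈ M, θ (x + y) = θ x + θ y
  mul : ∀ x ∈ M, ∀ y ∈ M, θ (x * y) = θ x * θ y
  smul : ∀ c : ℂ, ∀ x ∈ M, θ (c • x) = c • θ x
  star : ∀ x ∈ M, θ (star x) = star (θ x)

/-- `L(G)` and `L(H)` are `*`-isomorphic. -/
def StarIso (G H : Type) [Group G] [Group H] : Prop :=
  ∀ (E F : Type) [NormedAddCommGroup E] [InnerProductSpace ℂ E] [CompleteSpace E]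
    [NormedAddCommGroup F] [InnerProductSpace ℂ F] [CompleteSpace F]
    (e : HilbertBasis G ℂ E) (f : HilbertBasis H ℂ F),
    ∃ θ : (E →L[ℂ] E) → (F →L[ℂ] F), IsStarIso θ (groupVN e) (groupVN f)

/-- The trace `τ(x) = ⟨δ₁, x δ₁⟩`. -/
noncomputable def trace {G : Type} [Group G] {E : Type} [NormedAddCommGroup E]
    [InnerProductSpace ℂ E] (e : HilbertBasis G ℂ E) (x : E →L[ℂ] E) : ℂ :=
  inner ℂ (e 1) (x (e 1))

/-- `L(G)` and `L(H)` are isomorphic, by a trace preserving `*`-isomorphism. -/
def TraceIso (G H : Type) [Group G] [Group H] : Prop :=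
  ∀ (E F : Type) [NormedAddCommGroup E] [InnerProductSpace ℂ E] [CompleteSpace E]
    [NormedAddCommGroup F] [InnerProductSpace ℂ F] [CompleteSpace F]
    (e : HilbertBasis G ℂ E) (f : HilbertBasis H ℂ F),
    ∃ θ : (E →L[ℂ] E) → (F →L[ℂ] F), IsStarIso θ (groupVN e) (groupVN f) ∧
      ∀ x ∈ groupVN e, trace f (θ x) = trace e x

/-! ### Graph products -/

/-- `P`, with the homomorphisms `ι v : G v → P`, is the graph product of the groups `G v` over the
simple graph `Γ`: the images of `G v` and `G w` commute if `v`, `w` are adjacent, and `P` is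
universal with this property. -/
def IsGraphProduct {V : Type} (Γ : SimpleGraph V) {G : V → Type} [∀ v, Group (G v)] {P : Type}
    [Group P] (ι : ∀ v, G v →* P) : Prop :=
  (∀ v w, Γ.Adj v w → ∀ x y, ι v x * ι w y = ι w y * ι v x) ∧
  ∀ (M : Type) [Group M] (a : ∀ v, G v →* M),
    (∀ v w, Γ.Adj v w → ∀ x y, a v x * a w y = a w y * a v x) →
    ∃! f : P →* M, ∀ v x, f (ι v x) = a v x

/-- All vertex groups are equal to `F`, the group `K` acts on the set `V` of vertices, and `φ` is
an action of `K` by automorphisms on `P` which permutes the copies `ι v` of `F` accordingly. -/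
def PermutesCopies {V K F P : Type} [Group K] [MulAction K V] [Group F] [Group P]
    (ι : V → F →* P) (φ : K →* MulAut P) : Prop :=
  ∀ (k : K) (v : V) (x : F), φ k (ι v x) = ι (k • v) x

/-! ### Right-angled Artin groups -/

/-- The relations `v w = w v` for adjacent vertices `v`, `w`. -/
def artinRel {V : Type} (Λ : SimpleGraph V) : Set (FreeGroup V) :=
  {r | ∃ v w, Λ.Adj v w ∧
    r = FreeGroup.of v * FreeGroup.of w * (FreeGroup.of v)⁻¹ * (FreeGroup.of w)⁻¹}

/-- The right-angled Artin group of the simple graph `Λ`: generators are the vertices, relations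
are `v w = w v` for adjacent `v`, `w`. -/
abbrev Artin {V : Type} (Λ : SimpleGraph V) : Type := PresentedGroup (artinRel Λ)

/-- The blow-up of the graph `Γ`: every vertex `v` is replaced by the set `{(v, a) : a ∈ α v}` of
pairwise nonadjacent vertices, and `(v, a)`, `(w, b)` are adjacent if and only if `v`, `w` are
adjacent. -/
abbrev blowUp {V : Type} (Γ : SimpleGraph V) (α : V → Type) : SimpleGraph (Σ v, α v) :=
  Γ.comap Sigma.fst

/-! ### Amalgamated free products -/

/-- The relations `h f = f h`, `h ∈ H`, `f ∈ F`, in the free product `K * F`. -/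
def amalgamRel (K : Type) [Group K] (H : Subgroup K) (F : Type) [Group F] :
    Set (Coprod K F) :=
  {g | ∃ h ∈ H, ∃ f : F, g = Coprod.inl h * Coprod.inr f * (Coprod.inl h)⁻¹ * (Coprod.inr f)⁻¹}

/-- The amalgamated free product `K *_H (H × F)` of a group `K` with subgroup `H` and of the
group `H × F`: the quotient of the free product `K * F` by the relations `h f = f h` for all
`h ∈ H`, `f ∈ F`. -/
abbrev Amalgam (K : Type) [Group K] (H : Subgroup K) (F : Type) [Group F] : Type :=
  Coprod K F ⧸ Subgroup.normalClosure (amalgamRel K H F)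

end Vale.Agent.P086.H837
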