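import Vale.Agent.P086.H837.Perm
import Vale.Agent.P086.H837.Defs

/-!
The amalgamated free product `K *_H (H × F)` is the semidirect product of the free product of
copies of `F` indexed by `K ⧸ H` with `K`.
-/

set_option linter.all false

namespace Vale.Agent.P086.H837

open Vale.Agent.P086 Vale.Agent.P086.H677
open Monoid

section amal

variable (K : Type) [Group K] (H : Subgroup K) (F : Type) [Group F]

/-- The map of `K` to the amalgam. -/
def jK : K →* Amalgam K H F :=
  (QuotientGroup.mk' (Subgroup.normalClosure (amalgamRel K H F))).comp Coprod.inl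

/-- The map of `F` to the amalgam. -/
def jF : F →* Amalgam K H F :=
  (QuotientGroup.mk' (Subgroup.normalClosure (amalgamRel K H F))).comp Coprod.inr

theorem j_comm {h : K} (hh : h ∈ H) (f : F) :
    jK K H F h * jF K H F f = jF K H F f * jK K H F h := by
  have h1 : (QuotientGroup.mk' (Subgroup.normalClosure (amalgamRel K H F)))
      (Coprod.inl h * Coprod.inr f * (Coprod.inl h)⁻¹ * (Coprod.inr f)⁻¹) = 1 := by
    rw [QuotientGroup.mk'_apply, QuotientGroup.eq_one_iff]
    exact Subgroup.subset_normalClosure ⟨h, hh, f, rfl⟩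
  rw [map_mul, map_mul, map_mul, map_inv, map_inv, mul_inv_eq_one, mul_inv_eq_iff_eq_mul] at h1
  exact h1

/-- A homomorphism out of the amalgam. -/
def amLift {M : Type} [Group M] (a : K →* M) (b : F →* M)
    (hab : ∀ h ∈ H, ∀ f, a h * b f = b f * a h) : Amalgam K H F →* M :=
  QuotientGroup.lift (Subgroup.normalClosure (amalgamRel K H F)) (Coprod.lift a b) (by
    intro x hx
    have h1 : Subgroup.normalClosure (amalgamRel K H F) ≤ (Coprod.lift a b).ker := by
      apply Subgroup.normalClosure_le_normal
      rintro _ ⟨h, hh, f, rfl⟩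
      change Coprod.lift a b _ = 1
      rw [map_mul, map_mul, map_mul, map_inv, map_inv, Coprod.lift_apply_inl,
        Coprod.lift_apply_inr, hab h hh f]
      group
    exact h1 hx)

theorem amLift_jK {M : Type} [Group M] (a : K →* M) (b : F →* M)
    (hab : ∀ h ∈ H, ∀ f, a h * b f = b f * a h) (k : K) :
    amLift K H F a b hab (jK K H F k) = a k :=
  Coprod.lift_apply_inl a b k

theorem amLift_jF {M : Type} [Group M] (a : K →* M) (b : F →* M)
    (hab : ∀ h ∈ H, ∀ f, a h * b f = b f * a h) (f : F) :
    amLift K H F a b hab (jF K H F f) = b f :=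
  Coprod.lift_apply_inr a b f

theorem am_ext {M : Type} [Group M] {u v : Amalgam K H F →* M}
    (h1 : ∀ k, u (jK K H F k) = v (jK K H F k)) (h2 : ∀ f, u (jF K H F f) = v (jF K H F f)) :
    u = v := by
  apply QuotientGroup.monoidHom_ext
  apply Coprod.hom_ext
  · ext k
    exact h1 k
  · ext f
    exact h2 f

/-- The conjugate of `F` in the amalgam attached to a coset. -/
noncomputable def cc (x : K ⧸ H) : F →* Amalgam K H F :=
  (MulAut.conj (jK K H F x.out)).toMonoidHom.comp (jF K H F)

theorem cc_apply (x : K ⧸ H) (f : F) :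
    cc K H F x f = jK K H F x.out * jF K H F f * (jK K H F x.out)⁻¹ := rfl

theorem cc_mk (k : K) (f : F) :
    cc K H F (k : K ⧸ H) f = jK K H F k * jF K H F f * (jK K H F k)⁻¹ := by
  obtain ⟨h, hh⟩ := QuotientGroup.mk_out_eq_mul H k
  rw [cc_apply, hh, map_mul, mul_inv_rev, mul_assoc (jK K H F k), j_comm K H F h.2]
  group

/-- The permutation action of `K` on the free product of copies of `F` indexed by `K ⧸ H`. -/
def act : K →* MulAut (CoprodI (fun _ : K ⧸ H => F)) :=
  (pAut (K ⧸ H) F).comp (MulAction.toPermHom K (K ⧸ H))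

theorem act_of (k : K) (x : K ⧸ H) (f : F) :
    act K H F k (CoprodI.of (M := fun _ : K ⧸ H => F) (i := x) f) =
      CoprodI.of (M := fun _ : K ⧸ H => F) (i := k • x) f :=
  pAut_of _ _ _ _ _

/-- From the amalgam to the semidirect product. -/
def amF : Amalgam K H F →* CoprodI (fun _ : K ⧸ H => F) ⋊[act K H F] K :=
  amLift K H F SemidirectProduct.inr (SemidirectProduct.inl.comp
    (CoprodI.of (M := fun _ : K ⧸ H => F) (i := ((1 : K) : K ⧸ H)))) (by
    intro h hh f
    have h1 := SemidirectProduct.inl_aut (φ := act K H F) h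
      (CoprodI.of (M := fun _ : K ⧸ H => F) (i := ((1 : K) : K ⧸ H)) f)
    have h2 : h • ((1 : K) : K ⧸ H) = ((1 : K) : K ⧸ H) := by
      change (((h * 1 : K)) : K ⧸ H) = _
      rw [mul_one, QuotientGroup.eq]
      simpa using hh
    rw [act_of, h2, map_inv, eq_mul_inv_iff_mul_eq] at h1
    exact h1.symm)

theorem amF_jK (k : K) : amF K H F (jK K H F k) = SemidirectProduct.inr k :=
  amLift_jK _ _ _ _ _ _ _

theorem amF_jF (f : F) : amF K H F (jF K H F f) = SemidirectProduct.inl
    (CoprodI.of (M := fun _ : K ⧸ H => F) (i := ((1 : K) : K ⧸ H)) f) :=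
  amLift_jF _ _ _ _ _ _ _

/-- From the semidirect product to the amalgam. -/
noncomputable def amB : CoprodI (fun _ : K ⧸ H => F) ⋊[act K H F] K →* Amalgam K H F :=
  SemidirectProduct.lift (CoprodI.lift (cc K H F)) (jK K H F) (by
    intro k
    apply CoprodI.ext_hom
    intro x
    ext1 f
    change CoprodI.lift (cc K H F) (act K H F k (CoprodI.of (M := fun _ : K ⧸ H => F) (i := x) f)) =
      jK K H F k * CoprodI.lift (cc K H F) (CoprodI.of (M := fun _ : K ⧸ H => F) (i := x) f) *
        (jK K H F k)⁻¹
    rw [act_of, CoprodI.lift_of (M := fun _ : K ⧸ H => F) (i := k • x),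
      CoprodI.lift_of (M := fun _ : K ⧸ H => F) (i := x)]
    induction x using QuotientGroup.induction_on with
    | H y =>
      have h1 : k • (y : K ⧸ H) = ((k * y : K) : K ⧸ H) := rfl
      rw [h1, cc_mk, cc_mk, map_mul]
      group)

theorem amB_inl (x : K ⧸ H) (f : F) : amB K H F (SemidirectProduct.inl
    (CoprodI.of (M := fun _ : K ⧸ H => F) (i := x) f)) = cc K H F x f := by
  rw [amB, SemidirectProduct.lift_inl, CoprodI.lift_of (M := fun _ : K ⧸ H => F) (i := x)]

theorem amB_inr (k : K) : amB K H F (SemidirectProduct.inr k) = jK K H F k := by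
  rw [amB, SemidirectProduct.lift_inr]

/-- The amalgam is a semidirect product. -/
noncomputable def amEquiv : Amalgam K H F ≃* CoprodI (fun _ : K ⧸ H => F) ⋊[act K H F] K :=
  MonoidHom.toMulEquiv (amF K H F) (amB K H F)
    (by
      apply am_ext
      · intro k
        change amB K H F (amF K H F (jK K H F k)) = jK K H F k
        rw [amF_jK, amB_inr]
      · intro f
        change amB K H F (amF K H F (jF K H F f)) = jF K H F f
        rw [amF_jF, amB_inl, cc_mk, map_one, one_mul, inv_one, mul_one])
    (by
      apply SemidirectProduct.hom_ext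
      · apply CoprodI.ext_hom
        intro x
        ext1 f
        change amF K H F (amB K H F (SemidirectProduct.inl
          (CoprodI.of (M := fun _ : K ⧸ H => F) (i := x) f))) = SemidirectProduct.inl
          (CoprodI.of (M := fun _ : K ⧸ H => F) (i := x) f)
        rw [amB_inl]
        induction x using QuotientGroup.induction_on with
        | H y =>
          rw [cc_mk, map_mul, map_mul, map_inv, amF_jK, amF_jF, ← map_inv SemidirectProduct.inr,
            ← SemidirectProduct.inl_aut, act_of]
          have h1 : y • ((1 : K) : K ⧸ H) = ((y : K) : K ⧸ H) := by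
            change ((y * 1 : K) : K ⧸ H) = _
            rw [mul_one]
          rw [h1]
      · ext1 k
        change amF K H F (amB K H F (SemidirectProduct.inr k)) = SemidirectProduct.inr k
        rw [amB_inr, amF_jK])

end amal

/-- `L` of an amalgam `K *_H (H × F)` depends only on `L(F)`, `K` and `H`. -/
theorem spIso_amalgam (K : Type) [Group K] (H : Subgroup K) {F F' : Type} [Group F] [Group F']
    (h : SpIso F F') : SpIso (Amalgam K H F) (Amalgam K H F') :=
  (spIso_of_mulEquiv (amEquiv K H F)).trans
    ((spIso_wr K (K ⧸ H) h).trans (spIso_of_mulEquiv (amEquiv K H F').symm))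

end Vale.Agent.P086.H837
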