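import Vale.Agent.P086.H837.Defs
import Vale.Agent.P086.H677.FreeProd
import Vale.Agent.P086.H677.Classify2

/-!
Trace preserving `*`-isomorphisms of group von Neumann algebras and spatial isomorphisms.
-/

set_option linter.all false

open scoped InnerProductSpace

namespace Vale.Agent.P086.H837

open Vale.Agent.P086 Vale.Agent.P086.H677
open ContinuousLinearMap

section abs

variable {G : Type} [Group G] {E : Type} [NormedAddCommGroup E] [InnerProductSpace ℂ E]
  [CompleteSpace E]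

theorem groupVN_eq (e : HilbertBasis G ℂ E) : groupVN e = FF.GroupVN e := by
  ext x
  constructor
  · intro h y hy
    refine h y fun l hl => ?_
    obtain ⟨g, hg⟩ := hl
    exact (hy g l hg).symm
  · intro h y hy
    exact h y fun g l hl => (hy l ⟨g, hl⟩).symm

end abs

theorem mem_groupVN {G : Type} [Group G] (x : BH G) : x ∈ groupVN (stdB G) ↔ x ∈ LG G := by
  rw [groupVN_eq, groupVN_std]
  rfl

/-- The trace. -/
noncomputable def tr {G : Type} [Group G] (x : BH G) : ℂ := (x (dl 1)) 1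

theorem tr_eq {G : Type} [Group G] (x : BH G) : tr x = (x (dl 1)) 1 := rfl

theorem stdB_apply {G : Type} (g : G) : stdB G g = dl g := by
  have h : (stdB G).repr (stdB G g) = dl g := FF.repr_basis (stdB G) g
  exact h

variable {G H : Type} [Group G] [Group H]

/-- A spatial isomorphism gives a trace preserving `*`-isomorphism. -/
theorem traceIso_of_spIso (h : SpIso G H) : TraceIso G H := by
  intro E F _ _ _ _ _ _ e f
  obtain ⟨U, hU1, hU⟩ := FF.exists_unitary_of_spIso h e f
  refine ⟨fun x => U.conjStarAlgEquiv x, ⟨⟨fun x hx => ?_, ?_, ?_⟩, ?_, ?_, ?_, ?_⟩, ?_⟩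
  · rw [groupVN_eq] at hx ⊢
    exact (hU x).1 hx
  · exact U.conjStarAlgEquiv.injective.injOn
  · intro y hy
    refine ⟨U.conjStarAlgEquiv.symm y, ?_, StarAlgEquiv.apply_symm_apply _ _⟩
    rw [groupVN_eq] at hy ⊢
    rw [hU, StarAlgEquiv.apply_symm_apply]
    exact hy
  · exact fun x _ y _ => map_add _ x y
  · exact fun x _ y _ => map_mul _ x y
  · exact fun c x _ => map_smul _ c x
  · exact fun x _ => map_star _ x
  · intro x _
    have h1 : U.conjStarAlgEquiv x (f 1) = U (x (e 1)) := by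
      rw [LinearIsometryEquiv.conjStarAlgEquiv_apply_apply, ← hU1,
        LinearIsometryEquiv.symm_apply_apply]
    rw [trace, trace, h1, ← hU1, LinearIsometryEquiv.inner_map_map]

theorem starIso_of_traceIso (h : TraceIso G H) : StarIso G H := by
  intro E F _ _ _ _ _ _ e f
  obtain ⟨θ, hθ, _⟩ := h E F e f
  exact ⟨θ, hθ⟩

theorem norm_sq_trace (z : BH G) :
    ((‖z (dl 1)‖ ^ 2 : ℝ) : ℂ) = tr (star z * z) := by
  rw [tr_eq, ← inner_dl]
  change _ = ⟪dl 1, (star z) (z (dl 1))⟫_ℂ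
  rw [ContinuousLinearMap.star_eq_adjoint, ContinuousLinearMap.adjoint_inner_right,
    inner_self_eq_norm_sq_to_K]
  norm_cast

/-- A trace preserving `*`-isomorphism gives a frame. -/
theorem exists_frame_of_traceIso (h : TraceIso G H) : ∃ σ : G →* unitary (BH H), Frame σ := by
  classical
  obtain ⟨θ, hθ, htr'⟩ := h (Ell2 G) (Ell2 H) (stdB G) (stdB H)
  have htr : ∀ x ∈ groupVN (stdB G), tr (θ x) = tr x := by
    intro x hx
    have h1 := htr' x hx
    rw [trace, trace, stdB_apply, stdB_apply, inner_dl, inner_dl] at h1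
    exact h1
  have hM : ∀ x : BH G, x ∈ groupVN (stdB G) ↔ x ∈ LG G := mem_groupVN
  have hN : ∀ x : BH H, x ∈ groupVN (stdB H) ↔ x ∈ LG H := mem_groupVN
  have hl : ∀ g : G, lam g ∈ groupVN (stdB G) := fun g => (hM _).mpr (lam_mem_LG g)
  have h1G : (1 : BH G) ∈ groupVN (stdB G) := (hM _).mpr (one_mem _)
  have hθ1 : θ 1 = 1 := by
    obtain ⟨e, he, he1⟩ := hθ.bij.surjOn ((hN _).mpr (one_mem (LG H)))
    calc θ 1 = θ 1 * θ e := by rw [he1, mul_one]
      _ = θ (1 * e) := (hθ.mul 1 h1G e he).symm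
      _ = 1 := by rw [one_mul, he1]
  have hlm : ∀ g k, θ (lam (g * k)) = θ (lam g) * θ (lam k) := by
    intro g k
    rw [lam_mul, hθ.mul _ (hl g) _ (hl k)]
  have hls : ∀ g, star (θ (lam g)) = θ (lam g⁻¹) := by
    intro g
    rw [← hθ.star _ (hl g), star_lam]
  have hU : ∀ g, θ (lam g) ∈ unitary (BH H) := by
    intro g
    rw [Unitary.mem_iff, hls, ← hlm, ← hlm, inv_mul_cancel, mul_inv_cancel, lam_one, hθ1]
    exact ⟨rfl, rfl⟩
  let σ : G →* unitary (BH H) :=
    { toFun := fun g => ⟨θ (lam g), hU g⟩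
      map_one' := Subtype.ext (by
        change θ (lam 1) = 1
        rw [lam_one, hθ1])
      map_mul' := fun g k => Subtype.ext (hlm g k) }
  have hσ : ∀ g, (σ g : BH H) = θ (lam g) := fun g => rfl
  have hnorm : ∀ z ∈ groupVN (stdB G), ‖(θ z) (dl 1)‖ = ‖z (dl 1)‖ := by
    intro z hz
    have hzs : star z ∈ groupVN (stdB G) := (hM _).mpr (star_mem ((hM _).mp hz))
    have hzz : star z * z ∈ groupVN (stdB G) :=
      (hM _).mpr (mul_mem ((hM _).mp hzs) ((hM _).mp hz))
    have e1 := norm_sq_trace (θ z)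
    rw [← hθ.star z hz, ← hθ.mul _ hzs _ hz, htr _ hzz, ← norm_sq_trace] at e1
    have e2 : ‖(θ z) (dl 1)‖ ^ 2 = ‖z (dl 1)‖ ^ 2 := by
      exact_mod_cast e1
    exact (sq_eq_sq₀ (norm_nonneg _) (norm_nonneg _)).mp e2
  refine ⟨σ, ⟨fun g => ?_, fun g hg => ?_, lim_dense σ fun k ε hε => ?_⟩⟩
  · rw [← hN]
    exact hθ.bij.mapsTo (hl g)
  · rw [hσ]
    have e1 := htr (lam g) (hl g)
    rw [tr_eq, tr_eq] at e1
    rw [e1, lam_dl, mul_one, dl_apply, if_neg]
    exact fun h => hg h.symm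
  · obtain ⟨x, hx, hxk⟩ := hθ.bij.surjOn ((hN _).mpr (lam_mem_LG k))
    have hfr := frame_lam (MulEquiv.refl G)
    obtain ⟨P, hP⟩ := hfr.dense (x (dl 1)) ε hε
    refine ⟨P, ?_⟩
    have hsum : ∀ s : Finset G, (∑ g ∈ s, P.coeff g • lam g : BH G) ∈ groupVN (stdB G) ∧
        θ (∑ g ∈ s, P.coeff g • lam g) = ∑ g ∈ s, P.coeff g • θ (lam g) := by
      intro s
      induction s using Finset.induction_on with
      | empty =>
        rw [Finset.sum_empty, Finset.sum_empty]
        refine ⟨(hM _).mpr (zero_mem _), ?_⟩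
        have := hθ.smul 0 1 h1G
        rwa [zero_smul, zero_smul] at this
      | insert a s ha ih =>
        have hc : P.coeff a • lam a ∈ groupVN (stdB G) :=
          (hM _).mpr ((LG G).smul_mem (lam_mem_LG a) _)
        rw [Finset.sum_insert ha, Finset.sum_insert ha, hθ.add _ hc _ ih.1, ih.2,
          hθ.smul _ _ (hl a)]
        exact ⟨(hM _).mpr (add_mem ((hM _).mp hc) ((hM _).mp ih.1)), rfl⟩
    set z : BH G := ∑ g ∈ P.coeff.support, P.coeff g • lam g with hz
    have hz1 : z ∈ groupVN (stdB G) := (hsum _).1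
    have hz2 : repAlg ((lamU (G := G)).comp (MulEquiv.refl G).toMonoidHom) P = z := by
      rw [repAlg_apply]
      rfl
    have hz3 : θ z = repAlg σ P := by
      rw [hz, (hsum _).2, repAlg_apply]
      rfl
    have hnx : (-1 : ℂ) • x ∈ groupVN (stdB G) := (hM _).mpr ((LG G).smul_mem ((hM _).mp hx) _)
    have hzx : z + (-1 : ℂ) • x ∈ groupVN (stdB G) :=
      (hM _).mpr (add_mem ((hM _).mp hz1) ((hM _).mp hnx))
    have e1 : repAlg σ P (dl 1) - dl k = (θ (z + (-1 : ℂ) • x)) (dl 1) := by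
      rw [hθ.add _ hz1 _ hnx, hθ.smul _ _ hx, hz3, hxk, neg_one_smul, ← sub_eq_add_neg,
        sub_apply, lam_dl, mul_one]
    rw [e1, hnorm _ hzx, neg_one_smul, ← sub_eq_add_neg, sub_apply, ← hz2]
    exact hP

/-- Trace preserving `*`-isomorphism and spatial isomorphism are the same. -/
theorem traceIso_iff : TraceIso G H ↔ SpIso G H := by
  refine ⟨fun h => ?_, traceIso_of_spIso⟩
  obtain ⟨σ, hσ⟩ := exists_frame_of_traceIso h
  exact spIso_of_frame σ hσ

end Vale.Agent.P086.H837
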