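import Vale.Agent.P086.H837.Perm

/-!
Amplifications along commuting homomorphisms commute; supports of products in `L(G)`.
-/

set_option linter.all false

open scoped InnerProductSpace

namespace Vale.Agent.P086.H837

open Vale.Agent.P086 Vale.Agent.P086.H677
open ContinuousLinearMap

theorem hasSum_apply {X Y : Type} (T : Ell2 X →L[ℂ] Ell2 Y) (ζ : Ell2 X) (g : Y) :
    HasSum (fun h => ζ h * (T (dl h)) g) ((T ζ) g) := by
  have h1 := T.hasSum (IsoFrame.hasSum_dl ζ)
  have h2 := (innerSL ℂ (dl g : Ell2 Y)).hasSum h1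
  rw [innerSL_apply_apply, inner_dl] at h2
  have h3 : (fun h => ζ h * (T (dl h)) g) =
      (⇑(innerSL ℂ (dl g : Ell2 Y)) ∘ ⇑T ∘ fun x => ζ x • (dl x : Ell2 X)) := by
    funext h
    change _ = innerSL ℂ (dl g : Ell2 Y) (T (ζ h • (dl h : Ell2 X)))
    rw [map_smul, innerSL_apply_apply, inner_smul_right, inner_dl]
  rw [h3]
  exact h2

section two

variable {A B K : Type} [Group A] [Group B] [Group K] (i : A →* K) (hi : Function.Injective i)
  (j : B →* K) (hj : Function.Injective j)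

theorem ampOp_dl_one {U : unitary (BH A)} (hU : (U : BH A) ∈ LG A) :
    ampOp i hi hU (dl 1) = incl i hi ((U : BH A) (dl 1)) := by
  rw [ampOp_dl]
  ext h
  rw [rho_apply, inv_one, mul_one]

theorem ampOp_comm (hij : ∀ a b, i a * j b = j b * i a) {U : unitary (BH A)}
    (hU : (U : BH A) ∈ LG A) {W : unitary (BH B)} (hW : (W : BH B) ∈ LG B) :
    ampOp i hi hU * ampOp j hj hW = ampOp j hj hW * ampOp i hi hU := by
  have hU' := ampOp_mem i hi hU
  have hW' := ampOp_mem j hj hW
  refine IsoFrame.op_ext fun k => ?_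
  rw [LG_apply_dl (mul_mem hU' hW'), LG_apply_dl (mul_mem hW' hU')]
  congr 1
  change ampOp i hi hU (ampOp j hj hW (dl 1)) = ampOp j hj hW (ampOp i hi hU (dl 1))
  rw [ampOp_dl_one, ampOp_dl_one]
  set ξ := (U : BH A) (dl 1) with hξ
  set η := (W : BH B) (dl 1) with hη
  ext g
  have h1 := hasSum_apply (ampOp i hi hU) (incl j hj η) g
  have h2 := hasSum_apply (ampOp j hj hW) (incl i hi ξ) g
  let e : K ≃ K :=
    { toFun := fun h => h⁻¹ * g
      invFun := fun h => g * h⁻¹
      left_inv := fun h => by simp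
      right_inv := fun h => by simp }
  rw [← Equiv.hasSum_iff e] at h2
  refine h1.unique ?_
  convert h2 using 1
  funext h
  change (incl j hj η) h * (ampOp i hi hU (dl h)) g =
    (incl i hi ξ) (h⁻¹ * g) * (ampOp j hj hW (dl (h⁻¹ * g))) g
  rw [LG_apply_dl_apply hU', LG_apply_dl_apply hW', ampOp_dl_one, ampOp_dl_one, ← hξ, ← hη]
  have e1 : g * (h⁻¹ * g)⁻¹ = h := by group
  rw [e1]
  by_cases hh : ∃ b, j b = h
  · obtain ⟨b, rfl⟩ := hh
    have e2 : (incl i hi ξ) (g * (j b)⁻¹) = (incl i hi ξ) ((j b)⁻¹ * g) := by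
      by_cases hg : ∃ a, i a = g * (j b)⁻¹
      · obtain ⟨a, ha⟩ := hg
        have e3 : i a = (j b)⁻¹ * g := by
          rw [eq_inv_mul_iff_mul_eq, ← hij, ha, inv_mul_cancel_right]
        rw [← e3, ← ha]
      · have hg' : ¬ ∃ a, i a = (j b)⁻¹ * g := by
          rintro ⟨a, ha⟩
          apply hg
          refine ⟨a, ?_⟩
          rw [eq_mul_inv_iff_mul_eq, hij, ha, mul_inv_cancel_left]
        push Not at hg hg'
        rw [incl_apply_of_notMem _ _ _ hg, incl_apply_of_notMem _ _ _ hg']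
    rw [e2, mul_comm]
  · push Not at hh
    rw [incl_apply_of_notMem _ _ _ hh, zero_mul, mul_zero]

end two

/-- The operator `T` of `L(K)` has its vector `T δ₁` supported on the subgroup `P`. -/
def SuppOn {K : Type} [Group K] (P : Subgroup K) (T : BH K) : Prop :=
  T ∈ LG K ∧ ∀ l, l ∉ P → (T (dl 1)) l = 0

theorem SuppOn.mul {K : Type} [Group K] {P : Subgroup K} {S T : BH K} (hS : SuppOn P S)
    (hT : SuppOn P T) : SuppOn P (S * T) := by
  refine ⟨mul_mem hS.1 hT.1, fun l hl => ?_⟩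
  change (S (T (dl 1))) l = 0
  refine supp_apply S ((P : Set K)ᶜ) (P : Set K) (fun k hk m hm => ?_) _
    (fun k hk => hT.2 k hk) l hl
  rw [LG_apply_dl_apply hS.1]
  apply hS.2
  intro h
  apply hm
  have hk' : k ∈ P := by
    by_contra hk'
    exact hk hk'
  have := P.mul_mem h hk'
  rwa [inv_mul_cancel_right] at this

theorem SuppOn.one {K : Type} [Group K] (P : Subgroup K) : SuppOn P (1 : BH K) := by
  classical
  refine ⟨one_mem _, fun l hl => ?_⟩
  change (dl (1 : K) : Ell2 K) l = 0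
  rw [dl_apply, if_neg]
  rintro rfl
  exact hl P.one_mem

end Vale.Agent.P086.H837
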