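import Mathlib.Combinatorics.SimpleGraph.Basic
import Mathlib.GroupTheory.CoprodI
import Mathlib.GroupTheory.PresentedGroup
import Mathlib.GroupTheory.QuotientGroup.Defs
import Mathlib.Tactic.Group

/-!
Graph products as quotients of free products.
-/

set_option linter.all false

namespace Vale.Agent.P086.H837

open Monoid

/-- The relations `x y = y x` for `x ∈ G v`, `y ∈ G w`, `v`, `w` adjacent, in the free product of
all `G v`. -/
def qRel {V : Type} (Γ : SimpleGraph V) (G : V → Type) [∀ v, Group (G v)] :
    Set (CoprodI G) :=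
  {g : CoprodI G | ∃ v w, Γ.Adj v w ∧ ∃ (x : G v) (y : G w),
    g = CoprodI.of x * CoprodI.of y * (CoprodI.of x)⁻¹ * (CoprodI.of y)⁻¹}

/-- The graph product of the groups `G v` over the simple graph `Γ`: the quotient of the free
product of all `G v` by the relations `x y = y x` for `x ∈ G v`, `y ∈ G w`, `v`, `w` adjacent. -/
def QGraph {V : Type} (Γ : SimpleGraph V) (G : V → Type) [∀ v, Group (G v)] : Type :=
  CoprodI G ⧸ Subgroup.normalClosure (qRel Γ G)

instance {V : Type} (Γ : SimpleGraph V) (G : V → Type) [∀ v, Group (G v)] :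
    Group (QGraph Γ G) :=
  inferInstanceAs (Group (CoprodI G ⧸ Subgroup.normalClosure (qRel Γ G)))

section gp

variable {V : Type} (Γ : SimpleGraph V) (G : V → Type) [∀ v, Group (G v)]

/-- The natural map of a vertex group to the graph product. -/
def gi (v : V) : G v →* QGraph Γ G :=
  (QuotientGroup.mk' (Subgroup.normalClosure (qRel Γ G))).comp CoprodI.of

theorem gi_comm {v w : V} (h : Γ.Adj v w) (x : G v) (y : G w) :
    gi Γ G v x * gi Γ G w y = gi Γ G w y * gi Γ G v x := by
  have h1 : (QuotientGroup.mk' (Subgroup.normalClosure (qRel Γ G)))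
      (CoprodI.of x * CoprodI.of y * (CoprodI.of x)⁻¹ * (CoprodI.of y)⁻¹) = 1 := by
    rw [QuotientGroup.mk'_apply, QuotientGroup.eq_one_iff]
    exact Subgroup.subset_normalClosure ⟨v, w, h, x, y, rfl⟩
  rw [map_mul, map_mul, map_mul, map_inv, map_inv, mul_inv_eq_one, mul_inv_eq_iff_eq_mul] at h1
  exact h1

/-- The homomorphism out of the graph product with given values on the vertex groups. -/
def gLift {M : Type} [Group M] (a : ∀ v, G v →* M)
    (ha : ∀ v w, Γ.Adj v w → ∀ x y, a v x * a w y = a w y * a v x) : QGraph Γ G →* M :=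
  QuotientGroup.lift (Subgroup.normalClosure (qRel Γ G)) (CoprodI.lift a) (by
    intro x hx
    have h1 : Subgroup.normalClosure (qRel Γ G) ≤ (CoprodI.lift a).ker := by
      apply Subgroup.normalClosure_le_normal
      rintro _ ⟨v, w, h, x, y, rfl⟩
      change CoprodI.lift a _ = 1
      rw [map_mul, map_mul, map_mul, map_inv, map_inv, CoprodI.lift_of, CoprodI.lift_of,
        ha v w h x y]
      group
    exact h1 hx)

theorem gLift_gi {M : Type} [Group M] (a : ∀ v, G v →* M)
    (ha : ∀ v w, Γ.Adj v w → ∀ x y, a v x * a w y = a w y * a v x) (v : V) (x : G v) :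
    gLift Γ G a ha (gi Γ G v x) = a v x :=
  CoprodI.lift_of a x

theorem g_ind {motive : QGraph Γ G → Prop} (one : motive 1)
    (mul : ∀ v x g, motive g → motive (gi Γ G v x * g)) (g : QGraph Γ G) : motive g := by
  obtain ⟨w, rfl⟩ := QuotientGroup.mk'_surjective _ g
  induction w using CoprodI.induction_left with
  | one => rw [map_one]; exact one
  | mul m x ih =>
    rw [map_mul]
    exact mul _ _ _ ih

end gp

end Vale.Agent.P086.H837
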