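import Vale.Agent.P086.H837.Comm
import Vale.Agent.P086.H837.QGraph

/-!
Graph products: natural maps, parabolic subgroups, and the homomorphism to the semidirect
product which detects the letters of one vertex.
-/

set_option linter.all false

open scoped InnerProductSpace

namespace Vale.Agent.P086.H837

open Vale.Agent.P086 Vale.Agent.P086.H677
open ContinuousLinearMap Monoid

section gp

variable {V : Type} (Γ : SimpleGraph V) (G : V → Type) [∀ v, Group (G v)]

theorem gi_injective (v : V) : Function.Injective (gi Γ G v) := by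
  classical
  have h1 : ∀ u w, Γ.Adj u w → ∀ (x : G u) (y : G w),
      (Pi.mulSingle (M := fun u => G u →* G v) v (MonoidHom.id (G v)) u) x *
      (Pi.mulSingle (M := fun u => G u →* G v) v (MonoidHom.id (G v)) w) y =
      (Pi.mulSingle (M := fun u => G u →* G v) v (MonoidHom.id (G v)) w) y *
      (Pi.mulSingle (M := fun u => G u →* G v) v (MonoidHom.id (G v)) u) x := by
    intro u w h x y
    by_cases hu : u = v
    · have hw : w ≠ v := by
        rintro rfl
        exact h.ne hu
      rw [Pi.mulSingle_eq_of_ne hw, MonoidHom.one_apply, one_mul, mul_one]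
    · rw [Pi.mulSingle_eq_of_ne hu, MonoidHom.one_apply, one_mul, mul_one]
  have h2 : ∀ x, gLift Γ G (Pi.mulSingle (M := fun u => G u →* G v) v (MonoidHom.id (G v))) h1
      (gi Γ G v x) = x := by
    intro x
    rw [gLift_gi, Pi.mulSingle_eq_same]
    rfl
  exact Function.LeftInverse.injective h2

/-- The subgroup generated by the vertex groups of a set of vertices. -/
def par (S : Set V) : Subgroup (QGraph Γ G) :=
  Subgroup.closure {g | ∃ v ∈ S, ∃ x, g = gi Γ G v x}

theorem gi_mem_par {S : Set V} {v : V} (hv : v ∈ S) (x : G v) : gi Γ G v x ∈ par Γ G S :=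
  Subgroup.subset_closure ⟨v, hv, x, rfl⟩

theorem par_mono {S T : Set V} (h : S ⊆ T) : par Γ G S ≤ par Γ G T :=
  Subgroup.closure_mono fun _ ⟨v, hv, x, e⟩ => ⟨v, h hv, x, e⟩

theorem par_empty : par Γ G ∅ = ⊥ := by
  rw [eq_bot_iff, par, Subgroup.closure_le]
  rintro _ ⟨v, hv, _⟩
  exact absurd hv (Set.notMem_empty v)

/-- induction over words -/
theorem par_ind {S : Set V} {motive : QGraph Γ G → Prop} (one : motive 1)
    (mul : ∀ v ∈ S, ∀ x, ∀ g ∈ par Γ G S, motive g → motive (gi Γ G v x * g))
    {g : QGraph Γ G} (hg : g ∈ par Γ G S) : motive g := by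
  induction hg using Subgroup.closure_induction_left with
  | one => exact one
  | mul_left x hx y hy ih =>
    obtain ⟨v, hv, x, rfl⟩ := hx
    exact mul v hv x y hy ih
  | inv_mul_cancel x hx y hy ih =>
    obtain ⟨v, hv, x, rfl⟩ := hx
    rw [← map_inv]
    exact mul v hv x⁻¹ y hy ih

theorem exists_par (g : QGraph Γ G) : ∃ S : Finset V, g ∈ par Γ G (S : Set V) := by
  classical
  induction g using g_ind with
  | one => exact ⟨∅, one_mem _⟩
  | mul v x g ih =>
    obtain ⟨S, hS⟩ := ih
    refine ⟨insert v S, mul_mem (gi_mem_par Γ G (by simp) x) (par_mono Γ G ?_ hS)⟩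
    intro w hw
    simp only [Finset.coe_insert, Set.mem_insert_iff]
    exact Or.inr hw

end gp

section psi

variable {V : Type} (Γ : SimpleGraph V) (G : V → Type) [∀ v, Group (G v)] (u : V)

/-- The cosets of the subgroup generated by the vertex groups adjacent to `u`. -/
abbrev Cos : Type := QGraph Γ G ⧸ par Γ G {w | Γ.Adj u w}

/-- The trivial coset. -/
def c1 : Cos Γ G u := ((1 : QGraph Γ G) : Cos Γ G u)

/-- The permutation action on the free product of copies of `G u` indexed by the cosets. -/
def gact : QGraph Γ G →* MulAut (CoprodI (fun _ : Cos Γ G u => G u)) :=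
  (pAut (Cos Γ G u) (G u)).comp (MulAction.toPermHom (QGraph Γ G) (Cos Γ G u))

theorem gact_of (k : QGraph Γ G) (x : Cos Γ G u) (f : G u) :
    gact Γ G u k (CoprodI.of (M := fun _ : Cos Γ G u => G u) (i := x) f) =
      CoprodI.of (M := fun _ : Cos Γ G u => G u) (i := k • x) f :=
  pAut_of _ _ _ _ _

open Classical in
/-- The components of the homomorphism `psi`. -/
noncomputable def psiC : ∀ v, G v →* CoprodI (fun _ : Cos Γ G u => G u) ⋊[gact Γ G u]
    QGraph Γ G :=
  Function.update (fun v => (SemidirectProduct.inr (φ := gact Γ G u)).comp (gi Γ G v)) u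
    (SemidirectProduct.inl.comp (CoprodI.of (M := fun _ : Cos Γ G u => G u) (i := c1 Γ G u)))

theorem psiC_self : psiC Γ G u u = SemidirectProduct.inl.comp
    (CoprodI.of (M := fun _ : Cos Γ G u => G u) (i := c1 Γ G u)) := by
  classical
  rw [psiC, Function.update_self]

theorem psiC_ne {v : V} (hv : v ≠ u) :
    psiC Γ G u v = (SemidirectProduct.inr (φ := gact Γ G u)).comp (gi Γ G v) := by
  classical
  rw [psiC, Function.update_of_ne hv]

theorem psi_comm1 {w : V} (h : Γ.Adj u w) (x : G u) (y : G w) :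
    (SemidirectProduct.inl (CoprodI.of (M := fun _ : Cos Γ G u => G u) (i := c1 Γ G u) x) :
      CoprodI (fun _ : Cos Γ G u => G u) ⋊[gact Γ G u] QGraph Γ G) *
      SemidirectProduct.inr (gi Γ G w y) =
    SemidirectProduct.inr (gi Γ G w y) *
      SemidirectProduct.inl (CoprodI.of (M := fun _ : Cos Γ G u => G u) (i := c1 Γ G u) x) := by
  have h1 := SemidirectProduct.inl_aut (φ := gact Γ G u) (gi Γ G w y)
    (CoprodI.of (M := fun _ : Cos Γ G u => G u) (i := c1 Γ G u) x)
  have h2 : gi Γ G w y • c1 Γ G u = c1 Γ G u := by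
    change (((gi Γ G w y * 1 : QGraph Γ G)) : Cos Γ G u) = _
    rw [mul_one, c1, QuotientGroup.eq, mul_one]
    exact inv_mem (gi_mem_par Γ G (S := {w | Γ.Adj u w}) h y)
  rw [gact_of, h2, map_inv, eq_mul_inv_iff_mul_eq] at h1
  exact h1

/-- The homomorphism which detects the letters of the vertex `u`. -/
noncomputable def psi : QGraph Γ G →* CoprodI (fun _ : Cos Γ G u => G u) ⋊[gact Γ G u]
    QGraph Γ G :=
  gLift Γ G (psiC Γ G u) (by
    intro v w h x y
    by_cases hv : v = u
    · subst hv
      have hw : w ≠ v := h.ne'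
      rw [psiC_self, psiC_ne Γ G v hw]
      exact psi_comm1 Γ G v h x y
    · by_cases hw : w = u
      · subst hw
        rw [psiC_self, psiC_ne Γ G w hv]
        exact (psi_comm1 Γ G w h.symm y x).symm
      · rw [psiC_ne Γ G u hv, psiC_ne Γ G u hw]
        change SemidirectProduct.inr (gi Γ G v x) * SemidirectProduct.inr (gi Γ G w y) =
          SemidirectProduct.inr (gi Γ G w y) * SemidirectProduct.inr (gi Γ G v x)
        rw [← map_mul, gi_comm Γ G h, map_mul])

theorem psi_self (x : G u) : psi Γ G u (gi Γ G u x) =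
    SemidirectProduct.inl (CoprodI.of (M := fun _ : Cos Γ G u => G u) (i := c1 Γ G u) x) := by
  rw [psi, gLift_gi, psiC_self]
  rfl

theorem psi_par {k : QGraph Γ G} (hk : k ∈ par Γ G {v | v ≠ u}) :
    psi Γ G u k = SemidirectProduct.inr k := by
  refine par_ind Γ G (motive := fun k => psi Γ G u k = SemidirectProduct.inr k) ?_ ?_ hk
  · rw [map_one, map_one]
  · intro v hv x g _ hg
    rw [map_mul, hg, psi, gLift_gi, psiC_ne Γ G u hv, map_mul]
    rfl

/-- The `N`-component. -/
noncomputable def wd (g : QGraph Γ G) : CoprodI (fun _ : Cos Γ G u => G u) :=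
  (psi Γ G u g).left

theorem wd_par {k : QGraph Γ G} (hk : k ∈ par Γ G {v | v ≠ u}) : wd Γ G u k = 1 := by
  rw [wd, psi_par Γ G u hk, SemidirectProduct.left_inr]

theorem wd_self_mul (x : G u) (g : QGraph Γ G) : wd Γ G u (gi Γ G u x * g) =
    CoprodI.of (M := fun _ : Cos Γ G u => G u) (i := c1 Γ G u) x * wd Γ G u g := by
  rw [wd, map_mul, psi_self, SemidirectProduct.mul_left, SemidirectProduct.left_inl,
    SemidirectProduct.right_inl, map_one]
  rfl

theorem wd_par_mul {k : QGraph Γ G} (hk : k ∈ par Γ G {v | v ≠ u})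
    (g : QGraph Γ G) : wd Γ G u (k * g) = gact Γ G u k (wd Γ G u g) := by
  rw [wd, map_mul, psi_par Γ G u hk, SemidirectProduct.mul_left, SemidirectProduct.left_inr,
    SemidirectProduct.right_inr, one_mul]
  rfl

end psi

section st

variable {X F : Type} [Group F] [DecidableEq X] [DecidableEq F]

theorem pAut_St (p : Equiv.Perm X) (w : CoprodI.Word fun _ : X => F) :
    pAut X F p w.prod ∈ St (H' := fun _ : X => F) (w.fstIdx.map p) := by
  induction w using CoprodI.Word.consRecOn with
  | empty =>
    rw [CoprodI.Word.prod_empty, map_one]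
    exact one_mem_St
  | cons i m w h1 h2 ih =>
    rw [CoprodI.Word.prod_cons, map_mul, pAut_of, CoprodI.Word.fstIdx_cons, Option.map_some]
    refine of_mul_mem_St h2 fun h => h1 ?_
    have h3 : (CoprodI.Word.equiv (pAut X F p w.prod)).fstIdx = some (p i) := h
    have h4 : (CoprodI.Word.equiv (pAut X F p w.prod)).fstIdx = w.fstIdx.map p := ih
    rw [h3] at h4
    obtain ⟨j, hj, hji⟩ := Option.map_eq_some_iff.mp h4.symm
    rw [hj, p.injective hji]

theorem pAut_mem_St (p : Equiv.Perm X) {o : Option X} {n : CoprodI fun _ : X => F}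
    (hn : n ∈ St (H' := fun _ : X => F) o) :
    pAut X F p n ∈ St (H' := fun _ : X => F) (o.map p) := by
  have h1 : (CoprodI.Word.equiv n).prod = n := CoprodI.Word.equiv.symm_apply_apply n
  have h2 : (CoprodI.Word.equiv n).fstIdx = o := hn
  have h3 := pAut_St p (CoprodI.Word.equiv n)
  rwa [h1, h2] at h3

theorem St_unique {o o' : Option X} {n : CoprodI fun _ : X => F}
    (h : n ∈ St (H' := fun _ : X => F) o) (h' : n ∈ St (H' := fun _ : X => F) o') : o = o' := by
  have h1 : (CoprodI.Word.equiv n).fstIdx = o := h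
  have h2 : (CoprodI.Word.equiv n).fstIdx = o' := h'
  rw [← h1, h2]

end st

end Vale.Agent.P086.H837
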