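import Vale.Agent.P086.H837.GraphFrame
import Vale.Agent.P086.H837.Defs

/-!
Graph products of copies of one group with a group acting by automorphisms of the graph.
-/

set_option linter.all false

open scoped InnerProductSpace

namespace Vale.Agent.P086.H837

open Vale.Agent.P086 Vale.Agent.P086.H677
open ContinuousLinearMap Monoid

section eqv

variable {V : Type} (Γ : SimpleGraph V) {F F' : Type} [Group F] [Group F']
  (σ : F →* unitary (BH F')) (hσ : Frame σ) (θ : MulAut (QGraph Γ fun _ => F))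
  (θ' : MulAut (QGraph Γ fun _ => F')) (e : V → V)
  (h : ∀ v x, θ (gi Γ (fun _ => F) v x) = gi Γ (fun _ => F) (e v) x)
  (h' : ∀ v x, θ' (gi Γ (fun _ => F') v x) = gi Γ (fun _ => F') (e v) x)

include h' in
theorem permOp_incl_gi (v : V) (ξ : Ell2 F') :
    permOp θ'.toEquiv (incl (gi Γ (fun _ => F') v) (gi_injective Γ (fun _ => F') v) ξ) =
    incl (gi Γ (fun _ => F') (e v)) (gi_injective Γ (fun _ => F') (e v)) ξ := by
  have h2 : (permOp θ'.toEquiv) ∘L
      ((incl (gi Γ (fun _ => F') v) (gi_injective Γ (fun _ => F') v)).toContinuousLinearMap) =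
      (incl (gi Γ (fun _ => F') (e v))
        (gi_injective Γ (fun _ => F') (e v))).toContinuousLinearMap := by
    refine IsoFrame.op_ext fun n => ?_
    change permOp θ'.toEquiv (incl (gi Γ (fun _ => F') v) (gi_injective Γ (fun _ => F') v)
      (dl n)) = incl (gi Γ (fun _ => F') (e v)) (gi_injective Γ (fun _ => F') (e v)) (dl n)
    rw [incl_dl, incl_dl, permOp_dl]
    exact congrArg dl (h' v n)
  exact congrArg (fun A : Ell2 F' →L[ℂ] Ell2 (QGraph Γ fun _ => F') => A ξ) h2

include h h' in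
theorem permOp_gFr (w : QGraph Γ fun _ => F) :
    permOp θ'.toEquiv * (gFr Γ (G := fun _ => F) (G' := fun _ => F') (fun _ => σ) (fun _ => hσ) w :
        BH (QGraph Γ fun _ => F')) =
    (gFr Γ (G := fun _ => F) (G' := fun _ => F') (fun _ => σ) (fun _ => hσ) (θ w) :
        BH (QGraph Γ fun _ => F')) * permOp θ'.toEquiv := by
  induction w using g_ind with
  | one => rw [map_one, map_one, map_one, OneMemClass.coe_one, one_mul, mul_one]
  | mul v x g ih =>
    have h1 : permOp θ'.toEquiv * ampOp (gi Γ (fun _ => F') v) (gi_injective Γ (fun _ => F') v)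
        (hσ.mem x) = ampOp (gi Γ (fun _ => F') (e v)) (gi_injective Γ (fun _ => F') (e v))
        (hσ.mem x) * permOp θ'.toEquiv := by
      refine IsoFrame.op_ext fun k => ?_
      change permOp θ'.toEquiv (ampOp _ _ (hσ.mem x) (dl k)) =
        ampOp _ _ (hσ.mem x) (permOp θ'.toEquiv (dl k))
      rw [permOp_dl, ampOp_dl, ampOp_dl, permOp_rho, permOp_incl_gi Γ θ' e h']
      rfl
    rw [map_mul θ, h, gFr_mul, gFr_mul, gFr_gi, gFr_gi]
    rw [← mul_assoc, h1, mul_assoc, ih, mul_assoc]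

include h h' in
theorem gFr_perm (w : QGraph Γ fun _ => F) :
    (gFr Γ (G := fun _ => F) (G' := fun _ => F') (fun _ => σ) (fun _ => hσ) (θ w) :
      BH (QGraph Γ fun _ => F')) (dl 1) =
    permOp θ'.toEquiv ((gFr Γ (G := fun _ => F) (G' := fun _ => F') (fun _ => σ) (fun _ => hσ) w :
        BH (QGraph Γ fun _ => F')) (dl 1)) := by
  have h1 := congrArg (fun A : BH (QGraph Γ fun _ => F') => A (dl 1))
    (permOp_gFr Γ σ hσ θ θ' e h h' w)
  have h2 : permOp θ'.toEquiv (dl (1 : QGraph Γ fun _ => F')) = dl 1 := by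
    rw [permOp_dl]
    exact congrArg dl (map_one θ')
  refine Eq.trans ?_ h1.symm
  change _ = (gFr Γ (G := fun _ => F) (G' := fun _ => F') (fun _ => σ) (fun _ => hσ) (θ w) :
      BH (QGraph Γ fun _ => F')) (permOp θ'.toEquiv (dl 1))
  rw [h2]

end eqv

/-- `L` of the semidirect product of the graph product of copies of `F` with a group acting by
automorphisms of the graph depends only on `L(F)`. -/
theorem spIso_graphAct {V : Type} (Γ : SimpleGraph V) {K : Type} [Group K] (e : K → V → V)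
    {F F' : Type} [Group F] [Group F'] (φ : K →* MulAut (QGraph Γ fun _ => F))
    (φ' : K →* MulAut (QGraph Γ fun _ => F'))
    (hφ : ∀ k v x, φ k (gi Γ (fun _ => F) v x) = gi Γ (fun _ => F) (e k v) x)
    (hφ' : ∀ k v x, φ' k (gi Γ (fun _ => F') v x) = gi Γ (fun _ => F') (e k v) x)
    (h : SpIso F F') :
    SpIso ((QGraph Γ fun _ => F) ⋊[φ] K) ((QGraph Γ fun _ => F') ⋊[φ'] K) := by
  obtain ⟨σ, hσ⟩ := frame_of_spIso h
  exact spIso_of_frame _ (frame_semi φ φ'
    (gFr Γ (G := fun _ => F) (G' := fun _ => F') (fun _ => σ) (fun _ => hσ))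
    (frame_gFr Γ (G := fun _ => F) (G' := fun _ => F') (fun _ => σ) (fun _ => hσ))
    (fun k n => gFr_perm Γ σ hσ (φ k) (φ' k) (e k) (hφ k) (hφ' k) n))

section univ

variable {V : Type} (Γ : SimpleGraph V) {G : V → Type} [∀ v, Group (G v)] {P : Type} [Group P]
  {ι : ∀ v, G v →* P}

/-- A graph product is isomorphic to the quotient of the free product. -/
theorem exists_equiv (h : IsGraphProduct Γ ι) :
    ∃ ε : P ≃* QGraph Γ G, ∀ v x, ε (ι v x) = gi Γ G v x := by
  obtain ⟨h1, h2⟩ := h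
  obtain ⟨f, hf, -⟩ := h2 (QGraph Γ G) (gi Γ G) (fun v w hvw x y => gi_comm Γ G hvw x y)
  have hf' : ∀ v x, f (ι v x) = gi Γ G v x := hf
  obtain ⟨i, -, hi⟩ := h2 P ι h1
  refine ⟨MonoidHom.toMulEquiv f (gLift Γ G ι h1) ?_ ?_, hf'⟩
  · refine (hi _ fun v x => ?_).trans (hi _ fun v x => ?_).symm
    · change gLift Γ G ι h1 (f (ι v x)) = ι v x
      rw [hf', gLift_gi]
    · rfl
  · refine MonoidHom.ext fun g => ?_
    change f (gLift Γ G ι h1 g) = g
    induction g using g_ind with
    | one => rw [map_one, map_one]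
    | mul v x g ih => rw [map_mul, map_mul, ih, gLift_gi, hf']

theorem isGraphProduct_gi (G : V → Type) [∀ v, Group (G v)] :
    IsGraphProduct Γ (fun v => gi Γ G v) := by
  refine ⟨fun v w h x y => gi_comm Γ G h x y, fun M _ a ha => ⟨gLift Γ G a ha,
    fun v x => gLift_gi Γ G a ha v x, fun f hf => MonoidHom.ext fun g => ?_⟩⟩
  induction g using g_ind with
  | one => rw [map_one, map_one]
  | mul v x g ih =>
    have h : f (gi Γ G v x) = a v x := hf v x
    rw [map_mul, map_mul, ih, gLift_gi, h]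

end univ

/-- `L` respects graph products. -/
theorem spIso_graphProduct {V : Type} (Γ : SimpleGraph V) {G G' : V → Type} [∀ v, Group (G v)]
    [∀ v, Group (G' v)] {P P' : Type} [Group P] [Group P'] {ι : ∀ v, G v →* P}
    {ι' : ∀ v, G' v →* P'} (hι : IsGraphProduct Γ ι) (hι' : IsGraphProduct Γ ι')
    (h : ∀ v, SpIso (G v) (G' v)) : SpIso P P' := by
  obtain ⟨ε, _⟩ := exists_equiv Γ hι
  obtain ⟨ε', _⟩ := exists_equiv Γ hι'
  exact (spIso_of_mulEquiv ε).trans ((spIso_graph Γ G G' h).trans (spIso_of_mulEquiv ε'.symm))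

/-- Transport of an action. -/
def transAct {K P Q : Type} [Group K] [Group P] [Group Q] (ε : P ≃* Q) (φ : K →* MulAut P) :
    K →* MulAut Q := (MulAut.congr ε).toMonoidHom.comp φ

theorem transAct_apply {K P Q : Type} [Group K] [Group P] [Group Q] (ε : P ≃* Q)
    (φ : K →* MulAut P) (k : K) (q : Q) : transAct ε φ k q = ε (φ k (ε.symm q)) := rfl

/-- Transport of a semidirect product. -/
def transEquiv {K P Q : Type} [Group K] [Group P] [Group Q] (ε : P ≃* Q) (φ : K →* MulAut P) :
    P ⋊[φ] K ≃* Q ⋊[transAct ε φ] K :=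
  SemidirectProduct.congr ε (MulEquiv.refl K) (by
    intro k
    refine MulEquiv.ext fun p => ?_
    change ε (φ k p) = ε (φ k (ε.symm (ε p)))
    rw [MulEquiv.symm_apply_apply])

theorem spIso_graphSemi {V : Type} (Γ : SimpleGraph V) {K : Type} [Group K] (e : K → V → V)
    {F F' P P' : Type} [Group F] [Group F'] [Group P] [Group P'] {ι : V → F →* P}
    {ι' : V → F' →* P'} (hι : IsGraphProduct Γ ι) (hι' : IsGraphProduct Γ ι')
    (φ : K →* MulAut P) (φ' : K →* MulAut P')
    (hφ : ∀ k v x, φ k (ι v x) = ι (e k v) x) (hφ' : ∀ k v x, φ' k (ι' v x) = ι' (e k v) x)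
    (h : SpIso F F') : SpIso (P ⋊[φ] K) (P' ⋊[φ'] K) := by
  obtain ⟨ε, hε⟩ := exists_equiv Γ hι
  obtain ⟨ε', hε'⟩ := exists_equiv Γ hι'
  have hs : ∀ v x, ε.symm (gi Γ (fun _ => F) v x) = ι v x := fun v x => by
    rw [← hε, MulEquiv.symm_apply_apply]
  have hs' : ∀ v x, ε'.symm (gi Γ (fun _ => F') v x) = ι' v x := fun v x => by
    rw [← hε', MulEquiv.symm_apply_apply]
  refine (spIso_of_mulEquiv (transEquiv ε φ)).trans
    (SpIso.trans (spIso_graphAct Γ e _ _ ?_ ?_ h) (spIso_of_mulEquiv (transEquiv ε' φ').symm))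
  · intro k v x
    rw [transAct_apply, hs, hφ, hε]
  · intro k v x
    rw [transAct_apply, hs', hφ', hε']

end Vale.Agent.P086.H837
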