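import Vale.Agent.P086.H837.Graph

/-!
Graph products of frames are frames.
-/

set_option linter.all false

open scoped InnerProductSpace

namespace Vale.Agent.P086.H837

open Vale.Agent.P086 Vale.Agent.P086.H677
open ContinuousLinearMap Monoid

section fr

variable {V : Type} (Γ : SimpleGraph V) {G G' : V → Type} [∀ v, Group (G v)]
  [∀ v, Group (G' v)] (σ : ∀ v, G v →* unitary (BH (G' v))) (hσ : ∀ v, Frame (σ v))

/-- The amplified representation of one vertex group. -/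
noncomputable def vAmp (v : V) : G v →* unitary (BH (QGraph Γ G')) :=
  amp (gi Γ G' v) (gi_injective Γ G' v) (σ v) (hσ v).mem

theorem vAmp_coe (v : V) (x : G v) : (vAmp Γ σ hσ v x : BH (QGraph Γ G')) =
    ampOp (gi Γ G' v) (gi_injective Γ G' v) ((hσ v).mem x) := rfl

/-- The graph product of frames. -/
noncomputable def gFr : QGraph Γ G →* unitary (BH (QGraph Γ G')) :=
  gLift Γ G (vAmp Γ σ hσ) (by
    intro v w h x y
    apply Subtype.ext
    change (vAmp Γ σ hσ v x : BH (QGraph Γ G')) * (vAmp Γ σ hσ w y : BH _) =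
      (vAmp Γ σ hσ w y : BH (QGraph Γ G')) * (vAmp Γ σ hσ v x : BH _)
    rw [vAmp_coe, vAmp_coe]
    exact ampOp_comm _ _ _ _ (fun a b => gi_comm Γ G' h a b) _ _)

theorem gFr_gi (v : V) (x : G v) : (gFr Γ σ hσ (gi Γ G v x) : BH (QGraph Γ G')) =
    ampOp (gi Γ G' v) (gi_injective Γ G' v) ((hσ v).mem x) := by
  rw [gFr, gLift_gi, vAmp_coe]

theorem gFr_mul (a b : QGraph Γ G) : (gFr Γ σ hσ (a * b) : BH (QGraph Γ G')) =
    (gFr Γ σ hσ a : BH (QGraph Γ G')) * (gFr Γ σ hσ b : BH (QGraph Γ G')) := by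
  rw [map_mul]
  rfl

theorem gFr_mem (g : QGraph Γ G) :
    (gFr Γ σ hσ g : BH (QGraph Γ G')) ∈ LG (QGraph Γ G') := by
  induction g using g_ind with
  | one => rw [map_one]; exact one_mem _
  | mul v x g ih =>
    rw [gFr_mul, gFr_gi]
    exact mul_mem (ampOp_mem _ _ _) ih

theorem gFr_supp {S : Set V} {g : QGraph Γ G} (hg : g ∈ par Γ G S) :
    SuppOn (par Γ G' S) (gFr Γ σ hσ g : BH (QGraph Γ G')) := by
  refine par_ind Γ G (motive := fun g => SuppOn (par Γ G' S)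
    (gFr Γ σ hσ g : BH (QGraph Γ G'))) ?_ ?_ hg
  · rw [map_one]
    exact SuppOn.one _
  · intro v hv x g _ ih
    rw [gFr_mul, gFr_gi]
    refine SuppOn.mul ⟨ampOp_mem _ _ _, fun l hl => ?_⟩ ih
    rw [ampOp_dl_one]
    refine incl_apply_of_notMem _ _ _ fun y hy => hl ?_
    rw [← hy]
    exact gi_mem_par Γ G' hv y

section vert

variable (u : V)

open Classical in
/-- the elements whose `N`-component starts in the trivial coset -/
def DD : Set (QGraph Γ G') :=
  {g | wd Γ G' u g ∈ St (H' := fun _ : Cos Γ G' u => G' u) (some (c1 Γ G' u))}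

theorem gi_mul_mem_DD {y : G' u} (hy : y ≠ 1) {k : QGraph Γ G'}
    (hk : k ∉ DD Γ (G' := G') u) : gi Γ G' u y * k ∈ DD Γ (G' := G') u := by
  classical
  change wd Γ G' u (gi Γ G' u y * k) ∈ St (H' := fun _ : Cos Γ G' u => G' u) _
  rw [wd_self_mul]
  exact of_mul_mem_St (H' := fun _ : Cos Γ G' u => G' u) (i := c1 Γ G' u) hy fun h => hk h

theorem par_notMem_DD {k : QGraph Γ G'} (hk : k ∈ par Γ G' {v | v ≠ u}) :
    k ∉ DD Γ (G' := G') u := by
  classical
  intro h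
  have h1 : wd Γ G' u k ∈ St (H' := fun _ : Cos Γ G' u => G' u) (some (c1 Γ G' u)) := h
  rw [wd_par Γ G' u hk] at h1
  exact one_notMem_St _ h1

theorem par_mul_notMem_DD {k : QGraph Γ G'} (hk : k ∈ par Γ G' {v | v ≠ u})
    (hk' : k ∉ par Γ G' {w | Γ.Adj u w}) {g : QGraph Γ G'} (hg : g ∈ DD Γ (G' := G') u) :
    k * g ∉ DD Γ (G' := G') u := by
  classical
  intro h
  have hg1 : wd Γ G' u g ∈ St (H' := fun _ : Cos Γ G' u => G' u) (some (c1 Γ G' u)) := hg
  have h1 : wd Γ G' u (k * g) ∈ St (H' := fun _ : Cos Γ G' u => G' u) (some (c1 Γ G' u)) := h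
  rw [wd_par_mul Γ G' u hk] at h1
  have h2 := pAut_mem_St (MulAction.toPermHom (QGraph Γ G') (Cos Γ G' u) k) hg1
  have h3 := St_unique h1 h2
  rw [Option.map_some] at h3
  have h4 : c1 Γ G' u = k • c1 Γ G' u := Option.some_injective _ h3
  apply hk'
  have h5 : k • c1 Γ G' u = ((k * 1 : QGraph Γ G') : Cos Γ G' u) := rfl
  rw [h5, c1, mul_one, QuotientGroup.eq, inv_one, one_mul] at h4
  exact h4

theorem wd_ne_one_of_DD {k : QGraph Γ G'} (hk : k ∈ par Γ G' {v | v ≠ u})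
    {g : QGraph Γ G'} (hg : g ∈ DD Γ (G' := G') u) : wd Γ G' u (k * g) ≠ 1 := by
  classical
  intro h
  rw [wd_par_mul Γ G' u hk] at h
  have h1 : wd Γ G' u g = 1 := (gact Γ G' u k).injective (h.trans (map_one _).symm)
  have hg1 : wd Γ G' u g ∈ St (H' := fun _ : Cos Γ G' u => G' u) (some (c1 Γ G' u)) := hg
  rw [h1] at hg1
  exact one_notMem_St _ hg1

/-- The operators of the vertex `u` map vectors vanishing on `DD` to vectors supported in `DD`. -/
theorem gi_DD {x : G u} (hx : x ≠ 1) (ξ : Ell2 (QGraph Γ G'))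
    (hξ : ∀ k ∈ DD Γ (G' := G') u, ξ k = 0) (l : QGraph Γ G')
    (hl : l ∉ DD Γ (G' := G') u) :
    ((gFr Γ σ hσ (gi Γ G u x) : BH (QGraph Γ G')) ξ) l = 0 := by
  refine supp_apply _ (DD Γ (G' := G') u) (DD Γ (G' := G') u) (fun k hk m hm => ?_) ξ hξ l hl
  rw [gFr_gi, ampOp_dl, rho_apply]
  by_cases h : ∃ y, gi Γ G' u y = m * k⁻¹
  · obtain ⟨y, hy⟩ := h
    rw [← hy, incl_apply]
    by_cases hy1 : y = 1
    · rw [hy1]
      exact (hσ u).tr x hx
    · exfalso
      apply hm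
      have : m = gi Γ G' u y * k := by rw [hy]; group
      rw [this]
      exact gi_mul_mem_DD Γ u hy1 hk
  · push Not at h
    exact incl_apply_of_notMem _ _ _ h

variable (S₀ : Set V)

/-- Alternating words in the vertex group of `u` and the subgroup of `S₀`, starting in the vertex
group of `u`. -/
inductive Good : QGraph Γ G → Prop
  | base (x : G u) (hx : x ≠ 1) (k : QGraph Γ G) (hk : k ∈ par Γ G S₀) :
      Good (gi Γ G u x * k)
  | step (x : G u) (hx : x ≠ 1) (k : QGraph Γ G) (hk : k ∈ par Γ G S₀)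
      (hk' : k ∉ par Γ G {w | Γ.Adj u w}) (w : QGraph Γ G) (hw : Good w) :
      Good (gi Γ G u x * (k * w))

theorem comm_lk {k : QGraph Γ G} (hk : k ∈ par Γ G {w | Γ.Adj u w}) (x : G u) :
    gi Γ G u x * k = k * gi Γ G u x := by
  refine par_ind Γ G (motive := fun k => gi Γ G u x * k = k * gi Γ G u x) ?_ ?_ hk
  · rw [mul_one, one_mul]
  · intro v hv y g _ ih
    rw [← mul_assoc, gi_comm Γ G hv, mul_assoc, ih, mul_assoc]

theorem decomp {S : Set V} (hS : ∀ v ∈ S, v ≠ u → v ∈ S₀) {w : QGraph Γ G}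
    (hw : w ∈ par Γ G S) :
    w ∈ par Γ G S₀ ∨ ∃ k ∈ par Γ G S₀, ∃ w', Good Γ (G := G) u S₀ w' ∧ w = k * w' := by
  classical
  refine par_ind Γ G (motive := fun w => w ∈ par Γ G S₀ ∨
    ∃ k ∈ par Γ G S₀, ∃ w', Good Γ (G := G) u S₀ w' ∧ w = k * w') (Or.inl (one_mem _)) ?_ hw
  intro v hv x g _ ih
  by_cases hvu : v = u
  · subst hvu
    by_cases hx : x = 1
    · rw [hx, map_one, one_mul]
      exact ih
    · rcases ih with hg | ⟨k, hk, w', hw', rfl⟩
      · exact Or.inr ⟨1, one_mem _, _, Good.base x hx g hg, (one_mul _).symm⟩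
      · by_cases hk' : k ∈ par Γ G {w | Γ.Adj v w}
        · rw [← mul_assoc, comm_lk Γ v hk' x, mul_assoc]
          cases hw' with
          | base y hy k₁ hk₁ =>
            by_cases hxy : x * y = 1
            · left
              rw [← mul_assoc (gi Γ G v x), ← map_mul, hxy, map_one, one_mul]
              exact mul_mem hk hk₁
            · right
              exact ⟨k, hk, _, Good.base (x * y) hxy k₁ hk₁, by
                rw [map_mul, mul_assoc (gi Γ G v x)]⟩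
          | step y hy k₁ hk₁ hk₁' w₁ hw₁ =>
            by_cases hxy : x * y = 1
            · right
              refine ⟨k * k₁, mul_mem hk hk₁, w₁, hw₁, ?_⟩
              rw [← mul_assoc (gi Γ G v x), ← map_mul, hxy, map_one, one_mul, mul_assoc]
            · right
              exact ⟨k, hk, _, Good.step (x * y) hxy k₁ hk₁ hk₁' w₁ hw₁, by
                rw [map_mul, mul_assoc (gi Γ G v x)]⟩
        · right
          exact ⟨1, one_mem _, _, Good.step x hx k hk hk' w' hw', (one_mul _).symm⟩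
  · have hv0 : v ∈ S₀ := hS v hv hvu
    rcases ih with hg | ⟨k, hk, w', hw', rfl⟩
    · exact Or.inl (mul_mem (gi_mem_par Γ G hv0 x) hg)
    · exact Or.inr ⟨gi Γ G v x * k, mul_mem (gi_mem_par Γ G hv0 x) hk, w', hw',
        (mul_assoc _ _ _).symm⟩

variable (hS₀ : u ∉ S₀)
  (IH : ∀ k ∈ par Γ G S₀, k ∉ par Γ G {w | Γ.Adj u w} → ∀ l ∈ par Γ G' {w | Γ.Adj u w},
    ((gFr Γ σ hσ k : BH (QGraph Γ G')) (dl 1)) l = 0)

include hS₀ IH in
theorem good_supp {w : QGraph Γ G} (hw : Good Γ (G := G) u S₀ w) :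
    ∀ l, l ∉ DD Γ (G' := G') u →
      ((gFr Γ σ hσ w : BH (QGraph Γ G')) (dl 1)) l = 0 := by
  have hsub : par Γ G' S₀ ≤ par Γ G' {v | v ≠ u} :=
    par_mono Γ G' fun v hv h => hS₀ (h ▸ hv)
  induction hw with
  | base x hx k hk =>
    intro l hl
    rw [gFr_mul]
    change ((gFr Γ σ hσ (gi Γ G u x) : BH (QGraph Γ G'))
      ((gFr Γ σ hσ k : BH (QGraph Γ G')) (dl 1))) l = 0
    refine gi_DD Γ σ hσ u hx _ (fun m hm => ?_) l hl
    refine (gFr_supp Γ σ hσ hk).2 m fun hm' => ?_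
    exact par_notMem_DD Γ u (hsub hm') hm
  | step x hx k hk hk' w hw ih =>
    intro l hl
    rw [gFr_mul, gFr_mul]
    change ((gFr Γ σ hσ (gi Γ G u x) : BH (QGraph Γ G'))
      ((gFr Γ σ hσ k : BH (QGraph Γ G'))
        ((gFr Γ σ hσ w : BH (QGraph Γ G')) (dl 1)))) l = 0
    refine gi_DD Γ σ hσ u hx _ (fun m hm => ?_) l hl
    refine supp_apply _ (DD Γ (G' := G') u)ᶜ (DD Γ (G' := G') u)ᶜ (fun g hg n hn => ?_) _
      (fun g hg => ih g hg) m (fun h => h hm)
    have hg' : g ∈ DD Γ (G' := G') u := by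
      by_contra h
      exact hg h
    have hn' : n ∈ DD Γ (G' := G') u := by
      by_contra h
      exact hn h
    rw [LG_apply_dl_apply (gFr_mem Γ σ hσ k)]
    by_cases h1 : n * g⁻¹ ∈ par Γ G' S₀
    · by_cases h2 : n * g⁻¹ ∈ par Γ G' {w | Γ.Adj u w}
      · exact IH k hk hk' _ h2
      · exfalso
        have h3 := par_mul_notMem_DD Γ u (hsub h1) h2 hg'
        rw [inv_mul_cancel_right] at h3
        exact h3 hn'
    · exact (gFr_supp Γ σ hσ hk).2 _ h1

include hS₀ IH in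
theorem good_supp2 {k w : QGraph Γ G} (hk : k ∈ par Γ G S₀)
    (hw : Good Γ (G := G) u S₀ w) (l : QGraph Γ G') (hl : l ∈ par Γ G' {v | v ≠ u}) :
    ((gFr Γ σ hσ (k * w) : BH (QGraph Γ G')) (dl 1)) l = 0 := by
  have hsub : par Γ G' S₀ ≤ par Γ G' {v | v ≠ u} :=
    par_mono Γ G' fun v hv h => hS₀ (h ▸ hv)
  rw [gFr_mul]
  change ((gFr Γ σ hσ k : BH (QGraph Γ G'))
    ((gFr Γ σ hσ w : BH (QGraph Γ G')) (dl 1))) l = 0
  refine supp_apply _ (DD Γ (G' := G') u)ᶜ {g | wd Γ G' u g ≠ 1} (fun g hg n hn => ?_) _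
    (fun g hg => good_supp Γ σ hσ u S₀ hS₀ IH hw g hg) l (fun h => h (wd_par Γ G' u hl))
  have hg' : g ∈ DD Γ (G' := G') u := by
    by_contra h
    exact hg h
  rw [LG_apply_dl_apply (gFr_mem Γ σ hσ k)]
  refine (gFr_supp Γ σ hσ hk).2 _ fun h1 => hn ?_
  have h3 := wd_ne_one_of_DD Γ u (hsub h1) hg'
  rw [inv_mul_cancel_right] at h3
  exact h3

end vert

theorem main_supp (S : Finset V) : ∀ (T : Set V) (w : QGraph Γ G),
    w ∈ par Γ G (S : Set V) → w ∉ par Γ G T → ∀ l ∈ par Γ G' T,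
      ((gFr Γ σ hσ w : BH (QGraph Γ G')) (dl 1)) l = 0 := by
  classical
  induction S using Finset.strongInduction with
  | H S ih =>
    intro T w hw hwT l hl
    by_cases hST : (S : Set V) ⊆ T
    · exact absurd (par_mono Γ G hST hw) hwT
    · obtain ⟨u, huS, huT⟩ := Set.not_subset.mp hST
      obtain ⟨S₀, hsub, h0, h1⟩ : ∃ S₀ : Finset V, S₀ ⊂ S ∧ u ∉ (S₀ : Set V) ∧
          ∀ v ∈ (S : Set V), v ≠ u → v ∈ (S₀ : Set V) := by
        refine ⟨S.erase u, Finset.erase_ssubset huS, by simp, fun v hv hvu => ?_⟩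
        simp only [Finset.coe_erase, Set.mem_sdiff, Set.mem_singleton_iff]
        exact ⟨hv, hvu⟩
      have h2 := decomp Γ (G := G) u (S₀ : Set V) (S := (S : Set V)) h1 hw
      rcases h2 with h2 | ⟨k, hk, w', hw', hww⟩
      · exact ih S₀ hsub T w h2 hwT l hl
      · have hTu : T ⊆ {v | v ≠ u} := by
          intro v hv h
          exact huT (h ▸ hv)
        have hl' : l ∈ par Γ G' {v | v ≠ u} := par_mono Γ G' hTu hl
        rw [hww]
        exact good_supp2 Γ σ hσ u _ h0 (fun k hk hk' l hl => ih S₀ hsub _ k hk hk' l hl) hk hw' l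
          hl'

theorem gFr_tr (g : QGraph Γ G) (hg : g ≠ 1) :
    ((gFr Γ σ hσ g : BH (QGraph Γ G')) (dl 1)) 1 = 0 := by
  obtain ⟨S, hS⟩ := exists_par Γ G g
  refine main_supp Γ σ hσ S ∅ g hS (fun h => hg ?_) 1 (one_mem _)
  rw [par_empty, Subgroup.mem_bot] at h
  exact h

theorem gFr_dense (g : QGraph Γ G') : ∀ ε > 0, ∃ P : CG (QGraph Γ G),
    ‖repAlg (gFr Γ σ hσ) P (dl 1) - dl g‖ < ε := by
  induction g using g_ind with
  | one =>
    intro ε hε
    refine ⟨1, ?_⟩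
    rw [map_one]
    simpa using hε
  | mul v m x ih =>
    intro ε hε
    obtain ⟨Q, hQ⟩ := (hσ v).dense (dl m) (ε / 2) (half_pos hε)
    set T : BH (QGraph Γ G') := repAlg (vAmp Γ σ hσ v) Q with hT
    have hTm : T ∈ LG (QGraph Γ G') := by
      rw [hT, repAlg_apply]
      refine sum_mem fun g _ => (LG _).smul_mem ?_ _
      rw [vAmp_coe]
      exact ampOp_mem _ _ _
    have h1 : ‖(T - lam (gi Γ G' v m)) (dl 1)‖ < ε / 2 := by
      have e1 : (T - lam (gi Γ G' v m)) (dl 1) =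
          incl (gi Γ G' v) (gi_injective Γ G' v) (repAlg (σ v) Q (dl 1) - dl m) := by
        rw [sub_apply, hT, vAmp, repAlg_amp_dl, lam_dl, mul_one, map_sub, incl_dl]
      rw [e1, LinearIsometry.norm_map]
      exact hQ
    have h2 : ‖(T - lam (gi Γ G' v m)) (dl x)‖ < ε / 2 := by
      rw [lim_norm_sub_dl hTm (lam_mem_LG _), n2]
      exact h1
    obtain ⟨P, hP⟩ := ih (ε / 2 / (‖T‖ + 1)) (by positivity)
    refine ⟨MonoidAlgebra.mapDomainAlgHom ℂ ℂ (gi Γ G v) Q * P, ?_⟩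
    have h3 : repAlg (gFr Γ σ hσ) (MonoidAlgebra.mapDomainAlgHom ℂ ℂ (gi Γ G v) Q) = T := by
      have e : (gFr Γ σ hσ).comp (gi Γ G v) = vAmp Γ σ hσ v := by
        ext1 x
        rw [MonoidHom.comp_apply, gFr, gLift_gi]
      rw [← lim_repAlg_comp, hT, e]
    rw [map_mul, h3]
    have h4 : (T * repAlg (gFr Γ σ hσ) P) (dl 1) - dl (gi Γ G' v m * x) =
        T (repAlg (gFr Γ σ hσ) P (dl 1) - dl x) + (T - lam (gi Γ G' v m)) (dl x) := by
      rw [map_sub, sub_apply, lam_dl]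
      change T (repAlg (gFr Γ σ hσ) P (dl 1)) - _ = _
      abel
    rw [h4]
    have h5 : ‖T (repAlg (gFr Γ σ hσ) P (dl 1) - dl x)‖ ≤ ε / 2 := by
      refine (T.le_opNorm _).trans ?_
      calc ‖T‖ * ‖repAlg (gFr Γ σ hσ) P (dl 1) - dl x‖ ≤ (‖T‖ + 1) * (ε / 2 / (‖T‖ + 1)) := by
            gcongr
            linarith
        _ = ε / 2 := mul_div_cancel₀ _ (by positivity)
    refine (norm_add_le _ _).trans_lt ?_
    linarith

/-- The graph product of frames is a frame. -/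
theorem frame_gFr : Frame (gFr Γ σ hσ) where
  mem := gFr_mem Γ σ hσ
  tr := gFr_tr Γ σ hσ
  dense := lim_dense _ (gFr_dense Γ σ hσ)

end fr

/-- `L` respects graph products, over every graph. -/
theorem spIso_graph {V : Type} (Γ : SimpleGraph V) (G G' : V → Type) [∀ v, Group (G v)]
    [∀ v, Group (G' v)] (h : ∀ v, SpIso (G v) (G' v)) :
    SpIso (QGraph Γ G) (QGraph Γ G') := by
  choose σ hσ using fun v => frame_of_spIso (h v)
  exact spIso_of_frame _ (frame_gFr Γ σ hσ)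

end Vale.Agent.P086.H837
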