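import Vale.Agent.P086.H837.Defs
import Vale.Agent.P086.H837.QGraph

/-!
The right-angled Artin group of a blow-up is a graph product of free groups.
-/

set_option linter.all false

namespace Vale.Agent.P086.H837

open Monoid

section raag

variable {V : Type} (Γ : SimpleGraph V) (α : V → Type)

/-- From the Artin group to the graph product. -/
def rF : Artin (blowUp Γ α) →* QGraph Γ fun v => FreeGroup (α v) :=
  PresentedGroup.toGroup (f := fun p : Σ v, α v =>
    gi Γ (fun v => FreeGroup (α v)) p.1 (FreeGroup.of p.2)) (by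
    rintro _ ⟨p, q, h, rfl⟩
    have h1 : Γ.Adj p.1 q.1 := h
    rw [map_mul, map_mul, map_mul, map_inv, map_inv, FreeGroup.lift_apply_of,
      FreeGroup.lift_apply_of, mul_inv_eq_one, mul_inv_eq_iff_eq_mul]
    exact gi_comm Γ (fun v => FreeGroup (α v)) h1 _ _)

theorem rF_of (p : Σ v, α v) : rF Γ α (PresentedGroup.of p) =
    gi Γ (fun v => FreeGroup (α v)) p.1 (FreeGroup.of p.2) :=
  PresentedGroup.toGroup.of _

theorem of_comm {p q : Σ v, α v} (h : Γ.Adj p.1 q.1) :
    Commute (PresentedGroup.of p : Artin (blowUp Γ α)) (PresentedGroup.of q) := by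
  have h1 : (PresentedGroup.mk (artinRel (blowUp Γ α)))
      (FreeGroup.of p * FreeGroup.of q * (FreeGroup.of p)⁻¹ * (FreeGroup.of q)⁻¹) = 1 :=
    PresentedGroup.one_of_mem ⟨p, q, h, rfl⟩
  rw [map_mul, map_mul, map_mul, map_inv, map_inv, mul_inv_eq_one, mul_inv_eq_iff_eq_mul] at h1
  exact h1

/-- The map of one vertex group to the Artin group. -/
def rv (v : V) : FreeGroup (α v) →* Artin (blowUp Γ α) :=
  FreeGroup.lift fun a => PresentedGroup.of ⟨v, a⟩

theorem rv_of (v : V) (a : α v) : rv Γ α v (FreeGroup.of a) = PresentedGroup.of ⟨v, a⟩ := by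
  rw [rv, FreeGroup.lift_apply_of]

theorem rv_comm {v w : V} (h : Γ.Adj v w) (x : FreeGroup (α v)) (y : FreeGroup (α w)) :
    Commute (rv Γ α v x) (rv Γ α w y) := by
  have h1 : ∀ (x : FreeGroup (α v)) (b : α w),
      Commute (rv Γ α v x) (PresentedGroup.of ⟨w, b⟩) := by
    intro x b
    induction x using FreeGroup.induction_on with
    | C1 => rw [map_one]; exact Commute.one_left _
    | of a => rw [rv_of]; exact of_comm Γ α h
    | inv_of a ih => rw [map_inv]; exact ih.inv_left
    | mul x y hx hy => rw [map_mul]; exact hx.mul_left hy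
  induction y using FreeGroup.induction_on with
  | C1 => rw [map_one]; exact Commute.one_right _
  | of b => rw [rv_of]; exact h1 x b
  | inv_of b ih => rw [map_inv]; exact ih.inv_right
  | mul y z hy hz => rw [map_mul]; exact hy.mul_right hz

/-- From the graph product to the Artin group. -/
def rB : QGraph Γ (fun v => FreeGroup (α v)) →* Artin (blowUp Γ α) :=
  gLift Γ (fun v => FreeGroup (α v)) (rv Γ α) fun _ _ h x y => (rv_comm Γ α h x y).eq

theorem rB_gi (v : V) (x : FreeGroup (α v)) :
    rB Γ α (gi Γ (fun v => FreeGroup (α v)) v x) = rv Γ α v x :=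
  gLift_gi Γ (fun v => FreeGroup (α v)) _ _ v x

/-- The Artin group of a blow-up is a graph product of free groups. -/
def raagEquiv : Artin (blowUp Γ α) ≃* QGraph Γ fun v => FreeGroup (α v) :=
  MonoidHom.toMulEquiv (rF Γ α) (rB Γ α)
    (by
      refine PresentedGroup.ext fun p => ?_
      change rB Γ α (rF Γ α (PresentedGroup.of p)) = PresentedGroup.of p
      rw [rF_of, rB_gi, rv_of])
    (by
      refine MonoidHom.ext fun g => ?_
      change rF Γ α (rB Γ α g) = g
      induction g using g_ind with
      | one => rw [map_one, map_one]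
      | mul v x g ih =>
        rw [map_mul, map_mul, ih]
        congr 1
        rw [rB_gi]
        induction x using FreeGroup.induction_on with
        | C1 => rw [map_one, map_one, map_one]
        | of a => rw [rv_of, rF_of]
        | inv_of a ih => rw [map_inv, map_inv, ih, map_inv]
        | mul x y hx hy => rw [map_mul, map_mul, hx, hy, map_mul])

end raag

end Vale.Agent.P086.H837
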