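import Vale.Agent.P086.H837.Amal
import Vale.Agent.P086.H837.Bridge
import Vale.Agent.P086.H837.GraphAct
import Vale.Agent.P086.H837.Raag

/-!
The statements of `P086.GraphProducts` in terms of trace preserving `*`-isomorphisms.
-/

set_option linter.all false

namespace Vale.Agent.P086.H837

open Vale.Agent.P086 Vale.Agent.P086.H677

theorem traceIso_free (α β : Type) [Countable α] [Countable β] [Nontrivial α] [Nontrivial β] :
    TraceIso (FreeGroup α) (FreeGroup β) :=
  traceIso_of_spIso (spIso_all α β)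

theorem starIso_free (α β : Type) [Countable α] [Countable β] [Nontrivial α] [Nontrivial β] :
    StarIso (FreeGroup α) (FreeGroup β) := starIso_of_traceIso (traceIso_free α β)

theorem exists_graphProduct (V : Type) (Γ : SimpleGraph V) (G : V → Type) [∀ v, Group (G v)] :
    ∃ (P : Type) (_ : Group P) (ι : ∀ v, G v →* P), IsGraphProduct Γ ι :=
  ⟨QGraph Γ G, inferInstance, fun v => gi Γ G v, isGraphProduct_gi Γ G⟩

theorem traceIso_graph (V : Type) (Γ : SimpleGraph V) (G G' : V → Type) [∀ v, Group (G v)]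
    [∀ v, Group (G' v)] (P P' : Type) [Group P] [Group P'] (ι : ∀ v, G v →* P)
    (ι' : ∀ v, G' v →* P') (hι : IsGraphProduct Γ ι) (hι' : IsGraphProduct Γ ι')
    (h : ∀ v, TraceIso (G v) (G' v)) : TraceIso P P' :=
  traceIso_of_spIso (spIso_graphProduct Γ hι hι' fun v => traceIso_iff.mp (h v))

theorem traceIso_artin (V : Type) (Γ : SimpleGraph V) (α β : V → Type)
    (h : ∀ v, Nonempty (α v ≃ β v) ∨
      (Countable (α v) ∧ Countable (β v) ∧ Nontrivial (α v) ∧ Nontrivial (β v))) :
    TraceIso (Artin (blowUp Γ α)) (Artin (blowUp Γ β)) := by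
  refine traceIso_of_spIso ((spIso_of_mulEquiv (raagEquiv Γ α)).trans
    ((spIso_graph Γ _ _ fun v => ?_).trans (spIso_of_mulEquiv (raagEquiv Γ β).symm)))
  rcases h v with ⟨⟨e⟩⟩ | ⟨h1, h2, h3, h4⟩
  · exact spIso_of_mulEquiv (FreeGroup.freeGroupCongr e)
  · exact spIso_all (α v) (β v)

theorem traceIso_graphSemi (V K : Type) (Γ : SimpleGraph V) [Group K] [MulAction K V]
    (F F' P P' : Type) [Group F] [Group F'] [Group P] [Group P'] (ι : V → F →* P)
    (ι' : V → F' →* P') (φ : K →* MulAut P) (φ' : K →* MulAut P')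
    (hι : IsGraphProduct Γ ι) (hι' : IsGraphProduct Γ ι')
    (hφ : ∀ k v x, φ k (ι v x) = ι (k • v) x) (hφ' : ∀ k v x, φ' k (ι' v x) = ι' (k • v) x)
    (h : TraceIso F F') : TraceIso (P ⋊[φ] K) (P' ⋊[φ'] K) :=
  traceIso_of_spIso
    (spIso_graphSemi Γ (fun k v => k • v) hι hι' φ φ' hφ hφ' (traceIso_iff.mp h))

theorem traceIso_amalgam (K : Type) [Group K] (H : Subgroup K) (F F' : Type) [Group F]
    [Group F'] (h : TraceIso F F') : TraceIso (Amalgam K H F) (Amalgam K H F') :=
  traceIso_of_spIso (spIso_amalgam K H (traceIso_iff.mp h))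

end Vale.Agent.P086.H837
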