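import Vale.Agent.P086.H837.Semi

/-!
Free products of copies of a group, with the action permuting the copies.
-/

set_option linter.all false

open scoped InnerProductSpace

namespace Vale.Agent.P086.H837

open Vale.Agent.P086 Vale.Agent.P086.H677
open ContinuousLinearMap Monoid

section perm

variable (X F : Type) [Group F]

/-- The endomorphism of the free product of copies of `F` indexed by `X` given by a permutation
of `X`. -/
def pHom (p : Equiv.Perm X) : CoprodI (fun _ : X => F) →* CoprodI (fun _ : X => F) :=
  CoprodI.lift fun x => CoprodI.of (M := fun _ : X => F) (i := p x)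

theorem pHom_of (p : Equiv.Perm X) (x : X) (f : F) :
    pHom X F p (CoprodI.of (M := fun _ : X => F) (i := x) f) =
      CoprodI.of (M := fun _ : X => F) (i := p x) f :=
  CoprodI.lift_of (M := fun _ : X => F) (i := x) _ _

theorem pHom_mul (p q : Equiv.Perm X) : pHom X F (p * q) = (pHom X F p).comp (pHom X F q) := by
  apply CoprodI.ext_hom
  intro x
  ext1 f
  change pHom X F (p * q) (CoprodI.of (M := fun _ : X => F) (i := x) f) =
    pHom X F p (pHom X F q (CoprodI.of (M := fun _ : X => F) (i := x) f))
  rw [pHom_of, pHom_of, pHom_of]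
  rfl

theorem pHom_one : pHom X F 1 = MonoidHom.id _ := by
  apply CoprodI.ext_hom
  intro x
  ext1 f
  change pHom X F 1 (CoprodI.of (M := fun _ : X => F) (i := x) f) = _
  rw [pHom_of]
  rfl

/-- The automorphism of the free product of copies of `F` indexed by `X` given by a permutation
of `X`. -/
def pAut : Equiv.Perm X →* MulAut (CoprodI (fun _ : X => F)) where
  toFun p := MonoidHom.toMulEquiv (pHom X F p) (pHom X F p⁻¹)
    (by rw [← pHom_mul, inv_mul_cancel, pHom_one]) (by rw [← pHom_mul, mul_inv_cancel, pHom_one])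
  map_one' := by
    ext w
    change pHom X F 1 w = w
    rw [pHom_one]
    rfl
  map_mul' p q := by
    ext w
    change pHom X F (p * q) w = pHom X F p (pHom X F q w)
    rw [pHom_mul]
    rfl

theorem pAut_of (p : Equiv.Perm X) (x : X) (f : F) :
    pAut X F p (CoprodI.of (M := fun _ : X => F) (i := x) f) =
      CoprodI.of (M := fun _ : X => F) (i := p x) f := pHom_of X F p x f

end perm

theorem permOp_rho {G : Type} [Group G] (θ : MulAut G) (k : G) (ξ : Ell2 G) :
    permOp θ.toEquiv (rho k ξ) = rho (θ k) (permOp θ.toEquiv ξ) := by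
  have h2 : (permOp θ.toEquiv) ∘L (rho k) = (rho (θ k)) ∘L (permOp θ.toEquiv) := by
    refine IsoFrame.op_ext fun n => ?_
    change permOp θ.toEquiv (rho k (dl n)) = rho (θ k) (permOp θ.toEquiv (dl n))
    rw [rho_dl, permOp_dl, permOp_dl, rho_dl]
    congr 1
    exact map_mul θ n k
  exact congrArg (fun A : BH G => A ξ) h2

section fpp

variable (X : Type) [DecidableEq X] {F F' : Type} [Group F] [Group F'] [DecidableEq F]
  [DecidableEq F'] (σ : F →* unitary (BH F')) (hσ : Frame σ)

theorem permOp_incl (p : Equiv.Perm X) (x : X) (ξ : Ell2 F') :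
    permOp (pAut X F' p).toEquiv (incl (CoprodI.of (M := fun _ : X => F') (i := x))
      (CoprodI.of_injective x) ξ) =
    incl (CoprodI.of (M := fun _ : X => F') (i := p x)) (CoprodI.of_injective (p x)) ξ := by
  have h2 : (permOp (pAut X F' p).toEquiv) ∘L
      ((incl (CoprodI.of (M := fun _ : X => F') (i := x))
      (CoprodI.of_injective x)).toContinuousLinearMap) =
      (incl (CoprodI.of (M := fun _ : X => F') (i := p x))
        (CoprodI.of_injective (p x))).toContinuousLinearMap := by
    refine IsoFrame.op_ext fun n => ?_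
    change permOp (pAut X F' p).toEquiv (incl (CoprodI.of (M := fun _ : X => F') (i := x))
      (CoprodI.of_injective x) (dl n)) =
      incl (CoprodI.of (M := fun _ : X => F') (i := p x)) (CoprodI.of_injective (p x)) (dl n)
    rw [incl_dl, incl_dl, permOp_dl]
    exact congrArg dl (pAut_of X F' p x n)
  exact congrArg (fun A : Ell2 F' →L[ℂ] Ell2 (CoprodI (fun _ : X => F')) => A ξ) h2

theorem permOp_fp (p : Equiv.Perm X) (w : CoprodI (fun _ : X => F)) :
    permOp (pAut X F' p).toEquiv *
      (fp (H := fun _ : X => F) (H' := fun _ : X => F') (fun _ => σ) (fun _ => hσ) w :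
        BH (CoprodI (fun _ : X => F'))) =
    (fp (H := fun _ : X => F) (H' := fun _ : X => F') (fun _ => σ) (fun _ => hσ)
      (pAut X F p w) : BH (CoprodI (fun _ : X => F'))) * permOp (pAut X F' p).toEquiv := by
  induction w using CoprodI.induction_on with
  | one => rw [map_one, map_one, map_one, OneMemClass.coe_one, one_mul, mul_one]
  | of x f =>
    rw [pAut_of, fp_of, fp_of]
    refine IsoFrame.op_ext fun k => ?_
    change permOp (pAut X F' p).toEquiv (ampOp _ _ (hσ.mem f) (dl k)) =
      ampOp _ _ (hσ.mem f) (permOp (pAut X F' p).toEquiv (dl k))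
    rw [permOp_dl, ampOp_dl, ampOp_dl, permOp_rho, permOp_incl]
    rfl
  | mul a b ha hb =>
    rw [map_mul, map_mul, map_mul]
    change permOp (pAut X F' p).toEquiv * ((fp (H := fun _ : X => F) (H' := fun _ : X => F')
      (fun _ => σ) (fun _ => hσ) a : BH (CoprodI (fun _ : X => F'))) * (fp (H := fun _ : X => F)
      (H' := fun _ : X => F') (fun _ => σ) (fun _ => hσ) b : BH (CoprodI (fun _ : X => F')))) =
      (fp (H := fun _ : X => F) (H' := fun _ : X => F') (fun _ => σ) (fun _ => hσ)
      (pAut X F p a) : BH (CoprodI (fun _ : X => F'))) * (fp (H := fun _ : X => F)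
      (H' := fun _ : X => F') (fun _ => σ) (fun _ => hσ) (pAut X F p b) :
      BH (CoprodI (fun _ : X => F'))) * permOp (pAut X F' p).toEquiv
    rw [← mul_assoc, ha, mul_assoc, hb, mul_assoc]

theorem fp_perm (p : Equiv.Perm X) (w : CoprodI (fun _ : X => F)) :
    (fp (H := fun _ : X => F) (H' := fun _ : X => F') (fun _ => σ) (fun _ => hσ)
      (pAut X F p w) : BH (CoprodI (fun _ : X => F'))) (dl 1) =
    permOp (pAut X F' p).toEquiv
      ((fp (H := fun _ : X => F) (H' := fun _ : X => F') (fun _ => σ) (fun _ => hσ) w :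
        BH (CoprodI (fun _ : X => F'))) (dl 1)) := by
  have h := congrArg (fun A : BH (CoprodI (fun _ : X => F')) => A (dl 1))
    (permOp_fp X σ hσ p w)
  have h2 : permOp (pAut X F' p).toEquiv (dl (1 : CoprodI (fun _ : X => F'))) = dl 1 := by
    rw [permOp_dl]
    exact congrArg dl (map_one (pAut X F' p))
  refine Eq.trans ?_ h.symm
  change _ = (fp (H := fun _ : X => F) (H' := fun _ : X => F') (fun _ => σ) (fun _ => hσ)
      (pAut X F p w) : BH (CoprodI (fun _ : X => F'))) (permOp (pAut X F' p).toEquiv (dl 1))
  rw [h2]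

end fpp

/-- `(∗_X F) ⋊ K` and `(∗_X F') ⋊ K` have the same group von Neumann algebra if `F` and `F'`
have, `K` acting by permutation of the copies. -/
theorem spIso_wr (K X : Type) [Group K] [MulAction K X] {F F' : Type} [Group F] [Group F']
    (h : SpIso F F') :
    SpIso (CoprodI (fun _ : X => F) ⋊[(pAut X F).comp (MulAction.toPermHom K X)] K)
      (CoprodI (fun _ : X => F') ⋊[(pAut X F').comp (MulAction.toPermHom K X)] K) := by
  classical
  obtain ⟨σ, hσ⟩ := frame_of_spIso h
  exact spIso_of_frame _ (frame_semi ((pAut X F).comp (MulAction.toPermHom K X))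
    ((pAut X F').comp (MulAction.toPermHom K X))
    (fp (H := fun _ : X => F) (H' := fun _ : X => F') (fun _ => σ) (fun _ => hσ))
    (frame_fp (H := fun _ : X => F) (H' := fun _ : X => F') (fun _ => σ) (fun _ => hσ))
    (fun k n => fp_perm X σ hσ (MulAction.toPermHom K X k) n))

end Vale.Agent.P086.H837
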