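import Vale.Agent.P086.H677.FreeProd
import Mathlib.GroupTheory.SemidirectProduct

/-!
Semidirect products: an equivariant frame `σ : N → U(L(N'))` gives a frame of `N ⋊ K` in the
group von Neumann algebra of `N' ⋊ K`.
-/

set_option linter.all false

open scoped InnerProductSpace

namespace Vale.Agent.P086.H837

open Vale.Agent.P086 Vale.Agent.P086.H677
open ContinuousLinearMap

section semi

variable {N N' K : Type} [Group N] [Group N'] [Group K]
  (φ : K →* MulAut N) (φ' : K →* MulAut N')

theorem rho_incl_aut (k : K) (ξ : Ell2 N') :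
    rho (SemidirectProduct.inr k : N' ⋊[φ'] K)
      (incl (SemidirectProduct.inl : N' →* N' ⋊[φ'] K) SemidirectProduct.inl_injective
        (permOp (φ' k).toEquiv ξ)) =
    lam (SemidirectProduct.inr k : N' ⋊[φ'] K)
      (incl (SemidirectProduct.inl : N' →* N' ⋊[φ'] K) SemidirectProduct.inl_injective ξ) := by
  have h2 : (rho (SemidirectProduct.inr k : N' ⋊[φ'] K)) ∘L
      ((incl (SemidirectProduct.inl : N' →* N' ⋊[φ'] K)
        SemidirectProduct.inl_injective).toContinuousLinearMap ∘L permOp (φ' k).toEquiv)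
      = (lam (SemidirectProduct.inr k : N' ⋊[φ'] K)) ∘L
      ((incl (SemidirectProduct.inl : N' →* N' ⋊[φ'] K)
        SemidirectProduct.inl_injective).toContinuousLinearMap) := by
    refine IsoFrame.op_ext fun n => ?_
    change rho _ (incl _ SemidirectProduct.inl_injective (permOp (φ' k).toEquiv (dl n))) =
      lam _ (incl _ SemidirectProduct.inl_injective (dl n))
    rw [permOp_dl, incl_dl, incl_dl, rho_dl, lam_dl]
    congr 1
    change SemidirectProduct.inl (φ' k n) * SemidirectProduct.inr k = _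
    rw [SemidirectProduct.inl_aut, map_inv, inv_mul_cancel_right]
  exact congrArg (fun A : Ell2 N' →L[ℂ] Ell2 (N' ⋊[φ'] K) => A ξ) h2

variable (σ : N →* unitary (BH N')) (hσ : Frame σ)
  (heq : ∀ (k : K) (n : N), (σ (φ k n) : BH N') (dl 1) =
    permOp (φ' k).toEquiv ((σ n : BH N') (dl 1)))

/-- The frame on the semidirect product. -/
noncomputable def semi : N ⋊[φ] K →* unitary (BH (N' ⋊[φ'] K)) :=
  SemidirectProduct.lift
    (amp (SemidirectProduct.inl : N' →* N' ⋊[φ'] K) SemidirectProduct.inl_injective σ hσ.mem)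
    ((lamU (G := N' ⋊[φ'] K)).comp SemidirectProduct.inr)
    (by
      intro k
      ext1 n
      change amp (SemidirectProduct.inl : N' →* N' ⋊[φ'] K) SemidirectProduct.inl_injective σ
        hσ.mem (φ k n) = lamU (SemidirectProduct.inr k) *
        amp (SemidirectProduct.inl : N' →* N' ⋊[φ'] K) SemidirectProduct.inl_injective σ hσ.mem n *
        (lamU (SemidirectProduct.inr k))⁻¹
      rw [eq_mul_inv_iff_mul_eq]
      apply Subtype.ext
      change ampOp _ _ (hσ.mem (φ k n)) * lam (SemidirectProduct.inr k) =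
        lam (SemidirectProduct.inr k) * ampOp _ _ (hσ.mem n)
      refine IsoFrame.op_ext fun x => ?_
      change ampOp _ _ (hσ.mem (φ k n)) (lam (SemidirectProduct.inr k) (dl x)) =
        lam (SemidirectProduct.inr k) (ampOp _ _ (hσ.mem n) (dl x))
      rw [lam_dl, ampOp_dl, ampOp_dl, heq, ← rho_comp, rho_incl_aut]
      exact congrArg (fun A : BH (N' ⋊[φ'] K) => A _) (rho_lam x (SemidirectProduct.inr k)))

theorem semi_inl (n : N) : (semi φ φ' σ hσ heq (SemidirectProduct.inl n) : BH (N' ⋊[φ'] K)) =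
    ampOp (SemidirectProduct.inl : N' →* N' ⋊[φ'] K) SemidirectProduct.inl_injective
      (hσ.mem n) := by
  rw [semi, SemidirectProduct.lift_inl, amp_coe]

theorem semi_inr (k : K) : (semi φ φ' σ hσ heq (SemidirectProduct.inr k) : BH (N' ⋊[φ'] K)) =
    lam (SemidirectProduct.inr k) := by
  rw [semi, SemidirectProduct.lift_inr]
  rfl

theorem semi_mem (x : N ⋊[φ] K) :
    (semi φ φ' σ hσ heq x : BH (N' ⋊[φ'] K)) ∈ LG (N' ⋊[φ'] K) := by
  rw [← SemidirectProduct.inl_left_mul_inr_right x, map_mul]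
  refine mul_mem ?_ ?_
  · rw [semi_inl]
    exact ampOp_mem _ _ _
  · rw [semi_inr]
    exact lam_mem_LG _

theorem semi_dl (n : N) (k : K) :
    (semi φ φ' σ hσ heq (SemidirectProduct.inl n * SemidirectProduct.inr k) :
      BH (N' ⋊[φ'] K)) (dl 1) = rho (SemidirectProduct.inr k)
      (incl (SemidirectProduct.inl : N' →* N' ⋊[φ'] K) SemidirectProduct.inl_injective
        ((σ n : BH N') (dl 1))) := by
  rw [map_mul]
  change (semi φ φ' σ hσ heq (SemidirectProduct.inl n) : BH (N' ⋊[φ'] K))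
    ((semi φ φ' σ hσ heq (SemidirectProduct.inr k) : BH (N' ⋊[φ'] K)) (dl 1)) = _
  rw [semi_inr, lam_dl, mul_one, semi_inl, ampOp_dl]

theorem semi_tr (x : N ⋊[φ] K) (hx : x ≠ 1) :
    ((semi φ φ' σ hσ heq x : BH (N' ⋊[φ'] K)) (dl 1)) 1 = 0 := by
  rw [← SemidirectProduct.inl_left_mul_inr_right x, semi_dl, rho_apply, one_mul]
  by_cases hk : x.right = 1
  · have hn : x.left ≠ 1 := by
      intro h
      apply hx
      ext
      · exact h
      · exact hk
    rw [hk, map_one, inv_one, ← map_one (SemidirectProduct.inl : N' →* N' ⋊[φ'] K), incl_apply]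
    exact hσ.tr _ hn
  · refine incl_apply_of_notMem _ _ _ fun n hn => hk ?_
    have h1 : (SemidirectProduct.inl n : N' ⋊[φ'] K).right =
        ((SemidirectProduct.inr x.right : N' ⋊[φ'] K)⁻¹).right := congrArg (fun z => z.right) hn
    rw [SemidirectProduct.right_inl, SemidirectProduct.inv_right,
      SemidirectProduct.right_inr] at h1
    exact (inv_eq_one.mp h1.symm)

theorem semi_dense (y : N' ⋊[φ'] K) : ∀ ε > 0, ∃ P : CG (N ⋊[φ] K),
    ‖repAlg (semi φ φ' σ hσ heq) P (dl 1) - dl y‖ < ε := by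
  intro ε hε
  obtain ⟨Q, hQ⟩ := hσ.dense (dl y.left) ε hε
  refine ⟨MonoidAlgebra.mapDomainAlgHom ℂ ℂ (SemidirectProduct.inl : N →* N ⋊[φ] K) Q *
    MonoidAlgebra.single (SemidirectProduct.inr y.right) (1 : ℂ), ?_⟩
  have h3 : repAlg (semi φ φ' σ hσ heq)
      (MonoidAlgebra.mapDomainAlgHom ℂ ℂ (SemidirectProduct.inl : N →* N ⋊[φ] K) Q) =
      repAlg (amp (SemidirectProduct.inl : N' →* N' ⋊[φ'] K) SemidirectProduct.inl_injective σ
        hσ.mem) Q := by
    have e : (semi φ φ' σ hσ heq).comp (SemidirectProduct.inl : N →* N ⋊[φ] K) =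
        amp (SemidirectProduct.inl : N' →* N' ⋊[φ'] K) SemidirectProduct.inl_injective σ
          hσ.mem := by
      rw [semi, SemidirectProduct.lift_comp_inl]
    rw [← lim_repAlg_comp, e]
  have hT : repAlg (amp (SemidirectProduct.inl : N' →* N' ⋊[φ'] K)
      SemidirectProduct.inl_injective σ hσ.mem) Q ∈ LG (N' ⋊[φ'] K) := by
    rw [repAlg_apply]
    refine sum_mem fun g _ => (LG _).smul_mem ?_ _
    rw [amp_coe]
    exact ampOp_mem _ _ _
  have h4 : repAlg (semi φ φ' σ hσ heq) (MonoidAlgebra.mapDomainAlgHom ℂ ℂ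
      (SemidirectProduct.inl : N →* N ⋊[φ] K) Q *
      MonoidAlgebra.single (SemidirectProduct.inr y.right) (1 : ℂ)) (dl 1) =
      rho (SemidirectProduct.inr y.right) (incl (SemidirectProduct.inl : N' →* N' ⋊[φ'] K)
        SemidirectProduct.inl_injective (repAlg σ Q (dl 1))) := by
    rw [map_mul, h3, repAlg_single, one_smul, semi_inr]
    change (repAlg (amp (SemidirectProduct.inl : N' →* N' ⋊[φ'] K)
      SemidirectProduct.inl_injective σ hσ.mem) Q) (lam (SemidirectProduct.inr y.right) (dl 1)) = _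
    rw [lam_dl, mul_one, LG_apply_dl hT, repAlg_amp_dl]
  have h5 : (dl y : Ell2 (N' ⋊[φ'] K)) = rho (SemidirectProduct.inr y.right)
      (incl (SemidirectProduct.inl : N' →* N' ⋊[φ'] K)
        SemidirectProduct.inl_injective (dl y.left)) := by
    rw [incl_dl, rho_dl, SemidirectProduct.inl_left_mul_inr_right]
  rw [h4, h5, ← map_sub, ← map_sub]
  have h6 : ‖rho (SemidirectProduct.inr y.right : N' ⋊[φ'] K)
      (incl (SemidirectProduct.inl : N' →* N' ⋊[φ'] K)
        SemidirectProduct.inl_injective (repAlg σ Q (dl 1) - dl y.left))‖ =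
      ‖repAlg σ Q (dl 1) - dl y.left‖ := by
    rw [rho, norm_permOp_apply, LinearIsometry.norm_map]
  rw [h6]
  exact hQ

/-- The frame of the semidirect product. -/
theorem frame_semi : Frame (semi φ φ' σ hσ heq) where
  mem := semi_mem φ φ' σ hσ heq
  tr := semi_tr φ φ' σ hσ heq
  dense := lim_dense _ (semi_dense φ φ' σ hσ heq)

end semi

end Vale.Agent.P086.H837
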